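import Vale.Agent.P366HB.Hd
import Vale.Agent.P366F.Ad
import Vale.Agent.P366SB.Sys

/-!
# P366HB: the frame in the charts of the manifold, and the block HD
-/

open Filter Topology Set Metric Matrix
open scoped ContDiff
open Vale.Agent.P366M Vale.Agent.P366F
open Vale.Agent.P366.Stmt (E)

noncomputable section

namespace Vale.Agent.P366HB

variable {n : ℕ} {M : Type} [Mfe n M] {Z : Dat n M} {W : Set M} {x : M} {e : Ch n M} {y : E n}

/-- the state in the chart `e` -/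
abbrev St (Z : Dat n M) (e : Ch n M) : E n → Vn n := ZZ (Z.a e) (Z.Nc e) (Z.Xc e) (Z.p e)

theorem lam_st (Z : Dat n M) (he : e ∈ At M) (y : E n) :
    lam (Z.g e) (y, St Z e y) = Z.lam (e.symm y) := by
  rw [lam_loc Z he, sq_dot]; rfl

theorem cl_sub (he : e ∈ At M) (hy : y ∈ closure (e.symm ⁻¹' W)) : e.symm y ∈ closure W :=
  (cont_symm he).closure_preimage_subset W hy

theorem lin (Z : Dat n M) (he : e ∈ At M) : ∃ A, Lin (Z.g e) (Z.K e) A :=
  P366SB.sys n _ _ (Z.D.met.rep he) (Z.D.smK _ he) (rep_sy Z.D.syK _)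

theorem bd_st (hZ : Z.Ok) (hb : Z.Bnd) (he : e ∈ At M) {C : Set (E n)} (hC : IsCompact C) :
    ∃ B, ∀ y ∈ C, e.symm y ∈ Z.U → ‖St Z e y‖ ≤ B := by
  obtain ⟨B0, h0⟩ := hb e he C 0 hC
  obtain ⟨B1, h1⟩ := hb e he C 1 hC
  have hg := Z.D.met.rep he
  have c1 : ∀ i j, Continuous fun q : E n × Vn n => Z.g e q.1 i j := fun i j =>
    (hg.sm i j).continuous.comp continuous_fst
  have c2 : ∀ i j, Continuous fun q : E n × Vn n => Z.K e q.1 i j := fun i j =>
    (Z.D.smK e he i j).continuous.comp continuous_fst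
  have c3 : ∀ k i j, Continuous fun q : E n × Vn n => P366.Stmt.chr (Z.g e) k i j q.1 :=
    fun k i j => (hg.sm_chr k i j).continuous.comp continuous_fst
  have c : Continuous fun q : E n × Vn n => ((q.2.1, q.2.2.1,
      fun i => q.2.2.2.1 i + ∑ j, Z.K e q.1 i j * q.2.2.1 j,
      fun i j => ∑ k, Z.g e q.1 j k * (q.2.2.2.2 k i +
        ∑ l, P366.Stmt.chr (Z.g e) k i l q.1 * q.2.2.1 l) + q.2.1 * Z.K e q.1 i j) : Vn n) := by
    fun_prop
  obtain ⟨B, hB⟩ := (hC.prod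
    (isCompact_closedBall (0 : Vn n) (|B0| + |B1|))).exists_bound_of_continuousOn c.continuousOn
  refine ⟨B, fun y hy hU => hB (y, Z.Nc e y, fun i => Z.Xc e i y,
    fun i => P366.Stmt.pd i (Z.Nc e) y, fun k i => P366.Stmt.pd i (Z.Xc e k) y) ⟨hy, ?_⟩⟩
  have k := hZ.eq e he y hU
  have k0 := h0 y hy hU
  have k1 := h1 y hy hU
  simp only [norm_iteratedFDeriv_zero, norm_iteratedFDeriv_one] at k0 k1
  have p0 : 0 ≤ |B0| + |B1| := by positivity
  have a0 : B0 ≤ |B0| + |B1| := by linarith [le_abs_self B0, abs_nonneg B1]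
  have a1 : B1 ≤ |B0| + |B1| := by linarith [le_abs_self B1, abs_nonneg B0]
  simp only [mem_closedBall_zero_iff, norm_prod_le_iff, pi_norm_le_iff_of_nonneg p0]
  exact ⟨k0.1.trans a0, fun i => (k0.2 i).trans a0, fun i =>
    (P366Z.abs_pd_le (k.smN.differentiableAt (by simp)) i).trans (k1.1.trans a1), fun j i =>
    (P366Z.abs_pd_le ((k.smX j).differentiableAt (by simp)) i).trans ((k1.2 j).trans a1)⟩

theorem frame (hZ : Z.Ok) (hp : Pre Z W) (he : e ∈ At M) :
    Fr (Z.g e) (Z.K e) (Z.a e) (Z.Nc e) (Z.Xc e) (Z.p e) (e.symm ⁻¹' W) := by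
  have hg := Z.D.met.rep he
  have om : closure (e.symm ⁻¹' W) ⊆ Z.Om e := fun y hy => hZ.cls hp.cp.sub (cl_sub he hy)
  have l0 : ∀ y ∈ closure (e.symm ⁻¹' W), y ∉ e.symm ⁻¹' W → Z.lam (e.symm y) = 0 := fun y hy h =>
    hp.fr _ ⟨cl_sub he hy, by rwa [hp.cp.op.interior_eq]⟩
  refine ⟨hg, hp.cp.op.preimage (cont_symm he), fun y hy => ?_,
    (hZ.lipN e he).continuousOn.mono om, fun i => (hZ.lipX e he i).continuousOn.mono om,
    fun y hy h => (lam_st Z he y).trans (l0 y hy h), fun y hy h => ?_, fun C hC => ?_⟩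
  · have k := hp.vac e he y hy
    exact ⟨k.smN, k.smX, k.smp, k.N0, k.l0, k.sk, k.dN, k.dX, k.dp⟩
  · refine (em' (e.symm y ∈ Z.U)).imp (fun k v => hp.esc e he y v (om hy) k) fun k => ?_
    have k1 := hZ.eq e he y k
    have d : DifferentiableAt ℝ (fun z => lam (Z.g e) (z, St Z e z)) y :=
      ((k1.smN.differentiableAt (by simp)).fun_pow 2).fun_sub (P366XR.df_bl hg.sm
        (fun i => (k1.smX i).differentiableAt (by simp))
        fun i => (k1.smX i).differentiableAt (by simp))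
    have m : IsLocalMin (fun z => lam (Z.g e) (z, St Z e z)) y :=
      ((ev_iff he).1 (hZ.op.mem_nhds k)).mono fun z hz => by
        simp only [lam_st Z he, l0 y hy h]
        exact hZ.le _ (hZ.sub _ hz).le
    exact m.fderiv_eq_zero ▸ d.hasFDerivAt
  · exact (bd_st hZ hp.bnd he hC).imp fun B h y hy hW => h y hy (hp.cp.sub hW)

/-- a bound which holds in every chart holds on the manifold -/
theorem bd_charts {f l : M → ℝ} {s : Set M} (l0 : ∀ x ∈ s, 0 ≤ l x) (R : ℝ)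
    (h : ∀ e ∈ At M, ∀ R, ∃ C, ∀ x ∈ s, ch x = e → ‖pt x‖ ≤ R → f x ≤ C * l x) :
    ∃ C, ∀ x ∈ s, ‖px x‖ ≤ R → f x ≤ C * l x := by
  obtain ⟨C0, -, h0⟩ := pt_le M
  have := (Mfs.fin (M := M)).to_subtype
  choose C hC using fun e : range fun x : M => ch x =>
    h e (e.2.choose_spec ▸ ch_mem _) (C0 + R)
  obtain ⟨L, hL⟩ := (finite_range C).bddAbove
  exact ⟨L, fun x hx hR => (hC ⟨_, x, rfl⟩ x hx rfl (by linarith [h0 x])).trans
    (mul_le_mul_of_nonneg_right (hL ⟨_, rfl⟩) (l0 x hx))⟩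

theorem yy_eq (g : P366.Stmt.Field n) (q : E n × Vn n) (j : Fin n) : YY g q j =
    ∑ k, (sN q * sa q j k + (P366.Stmt.mat g q.1 *ᵥ sX q) j * sp q k -
      (P366.Stmt.mat g q.1 *ᵥ sX q) k * sp q j) * sX q k := by
  have e : ∑ k, (P366.Stmt.mat g q.1 *ᵥ sX q) k * sp q j * sX q k =
      sp q j * sX q ⬝ᵥ P366.Stmt.mat g q.1 *ᵥ sX q := by
    rw [dotProduct, Finset.mul_sum]
    exact Finset.sum_congr rfl fun k _ => by ring
  simp only [add_mul, sub_mul, Finset.sum_add_distrib, Finset.sum_sub_distrib, e]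
  simp only [mul_assoc, ← Finset.mul_sum, YY, lam, ww, pX, Pi.add_apply, Pi.sub_apply,
    Pi.smul_apply, smul_eq_mul, show ∑ k, sa q j k * sX q k = (sa q *ᵥ sX q) j from rfl,
    show ∑ k, sp q k * sX q k = sp q ⬝ᵥ sX q from rfl]
  ring

/-- **HD** -/
theorem hd : HD := fun n M _ Z W hZ hp R => by
  refine bd_charts (fun x hx => (hp.cp.pos x hx).le) R fun e he R => ?_
  obtain ⟨A, hA⟩ := lin Z he
  refine ((frame hZ hp he).hd hA R).imp fun C hC x hx k hR => ?_
  subst k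
  have h := hC (pt x) (by simpa using hx) hR
  rw [lam_st Z he, symm_pt] at h
  refine le_of_eq_of_le (congrArg _ ?_) h
  have e1 : ∀ j, ∑ k, Z.tw (ch x) (pt x) j k * Z.X k x =
      YY (Z.g (ch x)) (pt x, St Z (ch x) (pt x)) j := fun j => by
    have e2 : ∀ k, Z.X k x = sX (pt x, St Z (ch x) (pt x)) k := fun k => (repV_pt _ _ _).symm
    simp only [e2, yy_eq]
    rfl
  simp only [mul_assoc, ← Finset.mul_sum, e1]
  rw [dot_sy ((Z.D.met.rep he).pos _).inv, dotProduct]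
  refine Finset.sum_congr rfl fun i _ => ?_
  rw [mulVec, dotProduct, Finset.mul_sum]
  exact Finset.sum_congr rfl fun j _ => mul_left_comm _ _ _

end Vale.Agent.P366HB
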