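import Vale.Agent.P366HB.Lim
import Vale.Agent.P366EN.Mots
import Vale.Agent.P366HP.Hopf

/-!
# P366HB: the block EDGE
-/

open Filter Topology Set Metric Matrix
open scoped ContDiff
open Vale.Agent.P366F

noncomputable section

namespace Vale.Agent.P366HB

section Chart

open Vale.Agent.P366.Stmt Vale.Agent.P366Z

variable {n : ℕ} {g K a a' : Field n} {N N' u u' : E n → ℝ} {X p X' p' : Fin n → E n → ℝ}
  {O S : Set (E n)} {c c' y : E n} {z z' : Vn n} {Y Y' : E n → Vn n}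

theorem Kd.congr (h : Kd g K a N X p y) (e : ZZ a' N' X' p' =ᶠ[𝓝 y] ZZ a N X p) :
    Kd g K a' N' X' p' y := by
  have e1 : N' =ᶠ[𝓝 y] N := e.mono fun _ k => congrArg (·.1) k
  have e2 : ∀ i, X' i =ᶠ[𝓝 y] X i := fun i => e.mono fun _ k => congrArg (·.2.1 i) k
  have e3 : ∀ i, p' i =ᶠ[𝓝 y] p i := fun i => e.mono fun _ k => congrArg (·.2.2.1 i) k
  have e4 : a' y = a y := congrArg (·.2.2.2) e.self_of_nhds
  have e5 := e1.self_of_nhds
  have e6 := fun i => (e2 i).self_of_nhds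
  have e7 := fun i => (e3 i).self_of_nhds
  refine ⟨h.smN.congr_of_eventuallyEq e1, fun i => (h.smX i).congr_of_eventuallyEq (e2 i),
    fun i => (h.smp i).congr_of_eventuallyEq (e3 i), e5 ▸ h.N0, ?_, e4 ▸ h.sk, fun i => ?_,
    fun i j => ?_, fun i j => ?_⟩
  · simpa only [P366RB.sq, e5, e6] using h.l0
  · simpa only [pd_congr e1, e6, e7] using h.dN i
  · simpa only [pd_congr (e2 _), e4, e5, e6] using h.dX i j
  · simpa only [pd_congr (e3 _), e4, e5, e6, e7] using h.dp i j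

theorem Ex.mots (F : Fr g K a N X p O) (hK : ∀ i j, Smooth fun z => K z i j)
    (sK : ∀ z i j, K z i j = K z j i) (h : Ex g a N X p O S y z Y u c) :
    ∀ᶠ w in 𝓝 y, u w = 0 → thetaPlus g K u w = 0 := by
  have s := contDiff_id.prodMk h.sm
  obtain ⟨i, hi⟩ := h.du
  have c1 : ContinuousAt (pd i u) y :=
    (contDiffAt_pd (k := 0) h.ev.self_of_nhds.1 (by simp) i).continuousAt
  filter_upwards [h.ev.eventually_nhds, c1.eventually_ne hi] with w w1 w2 w3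
  exact P366EN.mots n g K (fun y => sa (y, Y y)) (fun y => sN (y, Y y)) u (fun i y => sX (y, Y y) i)
    (fun i y => sp (y, Y y) i) w F.met hK sK (cd_sN.comp s)
    (fun i => (contDiff_pi.1 cd_sX i).comp s) (fun i => (contDiff_pi.1 cd_sp i).comp s)
    (fun i j => (cd_sa i j).comp s) (w1.mono fun _ k => k.1) w3 ⟨i, w2⟩
    (w1.mono fun v k => ⟨fun k0 => (F.kd v (k.2.1 k0).1.mem.1).congr (k.2.1 k0).2,
      fun k0 => ⟨congrFun (k.2.2 k0).2.1, Function.ne_iff.1 (k.2.2 k0).2.2⟩⟩)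

theorem vis_sign (hS : ∀ w ∈ S, ContinuousAt u w ∧ u w ≠ 0) (h : Vis S c y) (h0 : u c < 0) :
    u y < 0 := by
  by_contra! k
  obtain ⟨t, ht, e⟩ := intermediate_value_Icc (f := fun t : ℝ => u (c + t • (y - c))) zero_le_one
    (fun t ht => (ContinuousAt.comp (f := fun t : ℝ => c + t • (y - c)) (hS _ (h t ht)).1
      (by fun_prop)).continuousWithinAt) (show (0 : ℝ) ∈ _ from ⟨by simpa using h0.le, by simpa⟩)
  exact (hS _ (h t ht)).2 e

/-- a second sheet lies on the other side -/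
theorem Ex.other (h : Ex g a N X p O S y z Y u c) (F : Fr g K a N X p O)
    (h' : Ex g a N X p O {w | ContinuousAt u w ∧ (u w = 0 → w ∉ O)} y z' Y' u' c')
    (hq : (y, z) ∈ closure (Gr (ZZ a N X p) O)) (hq' : (y, z') ∈ closure (Gr (ZZ a N X p) O))
    (h0 : ∃ᶠ w in 𝓝 y, 0 < u' w ∧ u w < 0) :
    (∀ᶠ w in 𝓝 y, 0 < u' w → w ∈ O ∧ u w < 0) ∧ N y = 0 := by
  have k0 : ∀ w ∈ O ∩ {w | ContinuousAt u w ∧ (u w = 0 → w ∉ O)}, ContinuousAt u w ∧ u w ≠ 0 :=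
    fun w hw => ⟨hw.2.1, fun k => hw.2.2 k hw.1⟩
  obtain ⟨w₀, w1, w2⟩ := (h0.and_eventually h'.ev).exists
  have k1 := vis_sign k0 (w2.2.1 w1.1).1.symm w1.2
  have k2 : ∀ᶠ w in 𝓝 y, 0 < u' w → w ∈ O ∧ u w < 0 := h'.ev.mono fun w hw k =>
    ⟨(hw.2.1 k).1.mem.1, vis_sign k0 (hw.2.1 k).1 k1⟩
  refine ⟨k2, by_contra fun k => ?_⟩
  obtain ⟨-, a1, a2, a3, -⟩ := F.cl hq
  obtain ⟨-, b1, b2, -⟩ := F.cl hq'
  have e1 := (h.ev.self_of_nhds.2.2 h.u0).2.1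
  have e2 := (h'.ev.self_of_nhds.2.2 h'.u0).2.1
  rw [h.z0, a1, a2] at e1
  rw [h'.z0, b1, b2] at e2
  have e3 : (fun i => nrm g u' i y) = fun i => nrm g u i y := funext fun i =>
    mul_left_cancel₀ k ((congrFun e2 i).symm.trans (congrFun e1 i))
  obtain ⟨m, m0, -, m1⟩ := dot_nrm F.met h.du
  obtain ⟨m', m0', -, m1'⟩ := dot_nrm F.met h'.du
  rw [e3] at m1'
  obtain ⟨t, ⟨t1, t2⟩, t3⟩ := (((side (v := WithLp.toLp 2 fun i => nrm g u i y)
    (h.ev.self_of_nhds.1.differentiableAt (by simp)) h.u0.ge (m0.trans_eq m1.symm)).and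
    (side (v := WithLp.toLp 2 fun i => nrm g u i y)
      (h'.ev.self_of_nhds.1.differentiableAt (by simp)) h'.u0.ge (m0'.trans_eq m1'.symm))).and
    ((tend_line y _).eventually k2)).exists
  exact (t3 t2).2.not_gt t1

end Chart

open Vale.Agent.P366M
open Vale.Agent.P366.Stmt (E)

/-- **EDGE** -/
theorem edge : EDGE := fun n M _ Z W hZ hp hs hP ⟨q, hS⟩ x hx => by
  have he := ch_mem x
  have F := frame hZ hp he
  obtain ⟨A, hA⟩ := lin Z he
  have x3 : pt x ∉ (ch x).symm ⁻¹' W := fun h => hx.2 (by rw [hp.cp.op.interior_eq]; simpa using h)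
  have k0 : Tendsto (fun y => w0 (Z.g (ch x)) (y, St Z (ch x) y)) (𝓝[(ch x).symm ⁻¹' W] pt x)
      (𝓝 (Z.κ ^ 2)) := by
    have c1 : Tendsto (loc (ch x) Z.lam) (𝓝[(ch x).symm ⁻¹' W] pt x) (𝓝 0) := by
      have := ((hZ.clam' he).mono (s := Z.Om (ch x)) (t := (ch x).symm ⁻¹' closure W)
        (fun y hy => hZ.cls hp.cp.sub hy) (pt x) (by simpa using hx.1)).tendsto
      rw [loc_pt, hp.fr x hx] at this
      exact this.mono_left (nhdsWithin_mono _ (preimage_mono subset_closure))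
    have c2 : ContinuousAt (fun t : ℝ => Z.κ ^ 2 * (1 - √t ^ 2) ^ (2 * ((n : ℝ) - 1) / (n - 2))) 0 :=
      continuousAt_const.mul (ContinuousAt.rpow_const (by fun_prop) (Or.inl (by simp)))
    have := c2.tendsto.comp c1
    simp only [Real.sqrt_zero, zero_pow two_ne_zero, sub_zero, Real.one_rpow, mul_one] at this
    exact this.congr' (mem_of_superset self_mem_nhdsWithin fun y hy =>
      ((w0_st hp hs he hy).trans (hS.ip _ hy)).symm)
  have k1 : ∀ (l : Filter (E n)) [l.NeBot], l ≤ 𝓝[(ch x).symm ⁻¹' W] pt x → ∀ S ∈ 𝓝 (pt x),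
      ∃ z Y u c, (pt x, z) ∈ closure (Gr (St Z (ch x)) ((ch x).symm ⁻¹' W)) ∧
        0 < w0 (Z.g (ch x)) (pt x, z) ∧ Ex (Z.g (ch x)) (Z.a (ch x)) (Z.Nc (ch x)) (Z.Xc (ch x))
          (Z.p (ch x)) ((ch x).symm ⁻¹' W) S (pt x) z Y u c ∧ ∃ᶠ y in l, 0 < u y := by
    intro l _ hl S hS
    obtain ⟨z, l', l1, l2, l3, l4⟩ := F.clu (hl.trans nhdsWithin_le_nhds) (hl self_mem_nhdsWithin)
    have k2 : 0 < w0 (Z.g (ch x)) (pt x, z) := (pow_pos hZ.κ0 2).trans_eq (tendsto_nhds_unique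
      (k0.mono_left (l1.trans hl)) (((cd_w0 F.met).continuous.tendsto _).comp l3))
    obtain ⟨Y, u, c, h⟩ := F.ext hA (hs _ he) l4 x3 k2 hS
    exact ⟨z, Y, u, c, l4, k2, h, (((l3.eventually h.seq).and
      (l1 (hl self_mem_nhdsWithin))).mono fun y k => k.1 ⟨k.2, rfl⟩).frequently.filter_mono l1⟩
  have := nebot_ch hx.1
  obtain ⟨z, Y, u, c, hq, hw, h, -⟩ := k1 _ le_rfl _ univ_mem
  obtain ⟨t1, t2⟩ := tc_of hZ hp hq h
  have k2 : ∀ᶠ y in 𝓝 (pt x), y ∈ (ch x).symm ⁻¹' W → 0 < u y := by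
    by_contra k
    have : (𝓝[{y | y ∈ (ch x).symm ⁻¹' W ∧ u y < 0}] pt x).NeBot := frequently_iff_neBot.1
      (((not_eventually.1 k).and_eventually h.ev).mono fun y hy => by
        obtain ⟨y1, y2⟩ := Classical.not_imp.1 hy.1
        exact ⟨y1, (not_lt.1 y2).lt_of_ne fun k => (hy.2.2.2 k).1 y1⟩)
    obtain ⟨z', Y', u', c', hq', -, h', f⟩ := k1 (𝓝[{y | y ∈ (ch x).symm ⁻¹' W ∧ u y < 0}] pt x)
      (nhdsWithin_mono _ fun y hy => hy.1)
      {w | ContinuousAt u w ∧ (u w = 0 → w ∉ (ch x).symm ⁻¹' W)}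
      (h.ev.mono fun y hy => ⟨hy.1.continuousAt, fun k => (hy.2.2 k).1⟩)
    obtain ⟨o1, o2⟩ := h.other F h' hq hq' (((f.and_eventually self_mem_nhdsWithin).mono
      fun y hy => ⟨hy.1, hy.2.2⟩).filter_mono nhdsWithin_le_nhds)
    obtain ⟨t3, -⟩ := tc_of hZ hp hq' h'
    have t4 := hP x _ _ _ t1 t3.sm t3.s0 t3.ds (ev_pt.2 (o1.mono fun y hy k => by
      rw [right_inv he] at k ⊢; exact hy k)) (by simpa using o2)
    rw [t2] at t4
    have t5 := h.kap.2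
    rw [le_antisymm t4 h.kap.1] at t5
    linarith
  have k3 := h.mots F (Z.D.smK _ he) (rep_sy Z.D.syK _)
  have k4 : ∀ᶠ w in 𝓝 x, CAt ∞ (fun w => u (ch x w)) w ∧ (w ∈ W ↔ 0 < u (ch x w)) ∧
      (u (ch x w) = 0 → thetaPlus Z.D.g Z.D.K (fun w => u (ch x w)) w = 0) := by
    refine ev_pt.2 ?_
    filter_upwards [h.ev, k2, k3] with y y1 y2 y3
    have s : CAt ∞ (fun w => u (ch x w)) ((ch x).symm y) :=
      cAt_of_loc le_rfl he (by rw [loc_ch]; exact y1.1)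
    rw [right_inv he, ← thetaPlus_rep Z.D.met he _ (ContDiffAt.of_le s two_le_oo), loc_ch]
    exact ⟨s, ⟨y2, fun k => (y1.2.1 k).1.mem.1⟩, y3⟩
  refine ⟨fun w => u (ch x w), ?_, t1.ds⟩
  by_cases k5 : Z.D.F x = 0
  · filter_upwards [k4, P366HP.hopf Z.D.met Z.D.smK
      (ContDiffAt.of_le (CD.contDiffAt Z.D.dom.1) (by norm_cast))
      (ContDiffAt.of_le t1.sm two_le_oo) k5 t1.s0 (Z.D.dom.2.1 x k5) t1.ds
      (k4.mono fun w hw => ⟨fun k => hZ.sub _ (hp.cp.sub (hw.2.1.2 k)), fun k => (hZ.mar w k).le,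
        fun k => (hw.2.2 k).ge⟩)] with w w1 w2
    exact ⟨w1.1, w1.2.1, fun k => (w1.2.2 k).le, fun _ => w2⟩
  · exact k4.mono fun w w1 => ⟨w1.1, w1.2.1, fun k => (w1.2.2 k).le, fun k => absurd k k5⟩

end Vale.Agent.P366HB
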