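import Vale.Agent.P366Z.Calc3

/-!
# P366HB: linear algebra, and the behaviour of functions on one side of a level set
-/

open Filter Topology Set Matrix
open Vale.Agent.P366.Stmt Vale.Agent.P366Z

noncomputable section

namespace Vale.Agent.P366HB

variable {n : ℕ} {G a : Matrix (Fin n) (Fin n) ℝ} {X p ω η : Fin n → ℝ} {N : ℝ}

theorem pd_sy (hG : G.PosDef) : Gᵀ = G := by
  simpa [Matrix.conjTranspose_eq_transpose_of_trivial] using hG.isHermitian.eq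

theorem dot_sy (hG : G.PosDef) (x y : Fin n → ℝ) : x ⬝ᵥ G *ᵥ y = y ⬝ᵥ G *ᵥ x := by
  rw [dotProduct_mulVec, ← mulVec_transpose, pd_sy hG, dotProduct_comm]

theorem mul_inv_vec (hG : G.PosDef) (x : Fin n → ℝ) : G *ᵥ G⁻¹ *ᵥ x = x := by
  rw [mulVec_mulVec, mul_nonsing_inv _ (isUnit_iff_ne_zero.2 hG.det_pos.ne'), one_mulVec]

theorem inv_mul_vec (hG : G.PosDef) (x : Fin n → ℝ) : G⁻¹ *ᵥ G *ᵥ x = x := by
  rw [mulVec_mulVec, nonsing_inv_mul _ (isUnit_iff_ne_zero.2 hG.det_pos.ne'), one_mulVec]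

theorem q_pos (hG : G.PosDef) (h : X ≠ 0) : 0 < X ⬝ᵥ G *ᵥ X := hG.dotProduct_mulVec_pos h

theorem q_zero (hG : G.PosDef) (h : X ⬝ᵥ G *ᵥ X ≤ 0) : X = 0 :=
  by_contra fun k => (q_pos hG k).not_ge h

theorem q_nn (hG : G.PosDef) (X : Fin n → ℝ) : 0 ≤ X ⬝ᵥ G *ᵥ X :=
  hG.posSemidef.dotProduct_mulVec_nonneg X

theorem esc_alg (hG : G.PosDef) (hω : ω ≠ 0) (hN : 0 < N) (hX : X ⬝ᵥ G *ᵥ X ≤ N ^ 2)
    (h : ∀ v, (v + X) ⬝ᵥ G *ᵥ (v + X) < N ^ 2 → ω ⬝ᵥ v ≤ 0) :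
    X = (N / √(ω ⬝ᵥ G⁻¹ *ᵥ ω)) • G⁻¹ *ᵥ ω := by
  have h0 := q_pos hG.inv hω
  obtain ⟨m, hm, m0⟩ : ∃ m, √(ω ⬝ᵥ G⁻¹ *ᵥ ω) = m ∧ 0 < m := ⟨_, rfl, Real.sqrt_pos.2 h0⟩
  have m2 : ω ⬝ᵥ G⁻¹ *ᵥ ω = m ^ 2 := by rw [← hm, Real.sq_sqrt h0.le]
  have e1 : ∀ s : ℝ, (s • G⁻¹ *ᵥ ω) ⬝ᵥ G *ᵥ (s • G⁻¹ *ᵥ ω) = s ^ 2 * m ^ 2 := fun s => by
    rw [mulVec_smul, mul_inv_vec hG, smul_dotProduct, dotProduct_smul, dotProduct_comm, m2]
    simp only [smul_eq_mul]; ring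
  have h1 : N * m ≤ ω ⬝ᵥ X := le_of_forall_lt fun c hc => by
    have h2 : |max c 0 / (N * m)| < 1 := by
      rw [abs_of_nonneg (by positivity), div_lt_one (by positivity)]
      exact max_lt hc (by positivity)
    obtain ⟨s, s1, s2⟩ := exists_between h2
    have s0 : 0 ≤ s := (abs_nonneg _).trans s1.le
    have h3 := h ((s * N / m) • G⁻¹ *ᵥ ω - X) (by
      rw [sub_add_cancel, e1, div_pow, div_mul_cancel₀ _ (by positivity), mul_pow]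
      exact mul_lt_of_lt_one_left (by positivity) (by nlinarith))
    rw [dotProduct_sub, dotProduct_smul, m2, smul_eq_mul] at h3
    have h4 := (div_lt_iff₀ (by positivity)).1 ((le_abs_self _).trans_lt s1)
    have h5 : s * N / m * m ^ 2 = s * (N * m) := by field_simp
    linarith [le_max_left c 0]
  rw [hm]
  refine sub_eq_zero.1 (q_zero hG ?_)
  rw [mulVec_sub, sub_dotProduct, dotProduct_sub, dotProduct_sub, e1,
    dot_sy hG ((N / m) • G⁻¹ *ᵥ ω) X, mulVec_smul, mul_inv_vec hG, dotProduct_smul, dotProduct_comm X ω, smul_eq_mul]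
  have h2 : N / m * (N * m) ≤ N / m * ω ⬝ᵥ X := mul_le_mul_of_nonneg_left h1 (by positivity)
  have h3 : N / m * (N * m) = N ^ 2 := by field_simp
  have h4 : (N / m) ^ 2 * m ^ 2 = N ^ 2 := by field_simp
  linarith

theorem prop_alg (hω : ω ≠ 0) (h : ∀ v, 0 < ω ⬝ᵥ v → 0 ≤ η ⬝ᵥ v) : ∃ β ≥ (0 : ℝ), η = β • ω := by
  have h0 : 0 < ω ⬝ᵥ ω := (dotProduct_self_star_pos_iff (v := ω)).2 hω
  have b0 := h ω h0
  have h1 : ∀ v, ω ⬝ᵥ v = 0 → 0 ≤ η ⬝ᵥ v := fun v hv => le_of_forall_pos_le_add fun ε hε => by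
    have := h (v + (ε / (η ⬝ᵥ ω + 1)) • ω) (by
      rw [dotProduct_add, hv, zero_add, dotProduct_smul]; positivity)
    rw [dotProduct_add, dotProduct_smul, smul_eq_mul] at this
    have h2 : ε / (η ⬝ᵥ ω + 1) * η ⬝ᵥ ω ≤ ε := by
      rw [div_mul_eq_mul_div, div_le_iff₀ (by positivity)]; nlinarith
    linarith
  refine ⟨η ⬝ᵥ ω / ω ⬝ᵥ ω, by positivity, sub_eq_zero.1 (dotProduct_self_eq_zero.1 ?_)⟩
  have h2 : ω ⬝ᵥ (η - (η ⬝ᵥ ω / ω ⬝ᵥ ω) • ω) = 0 := by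
    rw [dotProduct_sub, dotProduct_smul, dotProduct_comm ω η, smul_eq_mul]; field_simp; ring
  have h3 := h1 _ h2
  have h4 := h1 (-_) (by rw [dotProduct_neg, h2, neg_zero])
  rw [dotProduct_neg] at h4
  rw [sub_dotProduct, smul_dotProduct, h2, smul_zero]
  linarith

theorem skew_dot (h : ∀ i j, a i j = -a j i) (X : Fin n → ℝ) : X ⬝ᵥ a *ᵥ X = 0 := by
  have e : aᵀ = -a := by ext i j; exact h j i
  have := dotProduct_mulVec X a X
  rw [← mulVec_transpose, e, neg_mulVec, neg_dotProduct, dotProduct_comm] at this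
  rw [dotProduct_comm]
  linarith

theorem st_vec (h : ∀ i j, N * a i j = p i * (G *ᵥ X) j - (G *ᵥ X) i * p j) :
    N • (N • p - a *ᵥ X) = (N ^ 2 - X ⬝ᵥ G *ᵥ X) • p + (p ⬝ᵥ X) • G *ᵥ X := by
  ext i
  have : N * (a *ᵥ X) i = p i * X ⬝ᵥ G *ᵥ X - (G *ᵥ X) i * p ⬝ᵥ X := by
    simp only [dotProduct, show (a *ᵥ X) i = ∑ j, a i j * X j from rfl, Finset.mul_sum,
      ← Finset.sum_sub_distrib]
    exact Finset.sum_congr rfl fun j _ => by rw [← mul_assoc, h]; ring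
  simp only [Pi.smul_apply, Pi.sub_apply, Pi.add_apply, smul_eq_mul]
  linear_combination -this

theorem st_nsq (hG : G.PosDef) (h : ∀ i j, N * a i j = p i * (G *ᵥ X) j - (G *ᵥ X) i * p j) :
    N ^ 2 * ∑ i, ∑ j, ∑ k, ∑ l, G⁻¹ i k * G⁻¹ j l * a i j * a k l =
      2 * (p ⬝ᵥ G⁻¹ *ᵥ p * X ⬝ᵥ G *ᵥ X - (p ⬝ᵥ X) ^ 2) := by
  have e : ∀ u v u' v' : Fin n → ℝ, ∑ i, ∑ j, ∑ k, ∑ l, G⁻¹ i k * G⁻¹ j l * (u i * v j) *
      (u' k * v' l) = u ⬝ᵥ G⁻¹ *ᵥ u' * v ⬝ᵥ G⁻¹ *ᵥ v' := fun u v u' v' => by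
    rw [dotProduct, dotProduct, Finset.sum_mul_sum]
    refine Finset.sum_congr rfl fun i _ => Finset.sum_congr rfl fun j _ => ?_
    rw [mul_mul_mul_comm, mulVec, mulVec, dotProduct, dotProduct, Finset.sum_mul_sum,
      Finset.mul_sum]
    refine Finset.sum_congr rfl fun k _ => ?_
    rw [Finset.mul_sum]
    exact Finset.sum_congr rfl fun l _ => by ring
  have e1 : N ^ 2 * ∑ i, ∑ j, ∑ k, ∑ l, G⁻¹ i k * G⁻¹ j l * a i j * a k l =
      ∑ i, ∑ j, ∑ k, ∑ l, G⁻¹ i k * G⁻¹ j l * (N * a i j) * (N * a k l) := by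
    simp only [Finset.mul_sum]
    exact Finset.sum_congr rfl fun i _ => Finset.sum_congr rfl fun j _ =>
      Finset.sum_congr rfl fun k _ => Finset.sum_congr rfl fun l _ => by ring
  simp only [e1, h, mul_sub, sub_mul, Finset.sum_sub_distrib, e, inv_mul_vec hG]
  rw [dot_sy hG.inv (G *ᵥ X) p, inv_mul_vec hG, dotProduct_comm (G *ᵥ X) X]
  ring

theorem cs_alg (hG : G.PosDef) (p X : Fin n → ℝ) :
    (p ⬝ᵥ X) ^ 2 ≤ p ⬝ᵥ G⁻¹ *ᵥ p * X ⬝ᵥ G *ᵥ X := by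
  rcases eq_or_ne X 0 with rfl | h
  · simp
  have h0 := q_pos hG h
  have h1 := q_nn hG ((X ⬝ᵥ G *ᵥ X) • G⁻¹ *ᵥ p - (p ⬝ᵥ X) • X)
  simp only [mulVec_sub, mulVec_smul, sub_dotProduct, dotProduct_sub, smul_dotProduct,
    dotProduct_smul, smul_eq_mul, mul_inv_vec hG, dot_sy hG (G⁻¹ *ᵥ p) X,
    dotProduct_comm (G⁻¹ *ᵥ p) p, dotProduct_comm X p] at h1
  nlinarith

section Side

variable {u f : E n → ℝ} {y v : E n}

theorem hd_line (hf : DifferentiableAt ℝ f y) (v : E n) :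
    HasDerivAt (fun t : ℝ => f (y + t • v)) ((fun i => pd i f y) ⬝ᵥ fun i => v i) 0 := by
  have h : HasDerivAt (fun t : ℝ => y + t • v) v 0 := by
    simpa using ((hasDerivAt_id (0 : ℝ)).smul_const v).const_add y
  have h1 := HasFDerivAt.comp_hasDerivAt_of_eq (0 : ℝ) hf.hasFDerivAt h (by simp)
  rw [fderiv_eq_sum hf] at h1
  rw [dotProduct_comm]
  exact h1

theorem tend_line (y v : E n) : Tendsto (fun t : ℝ => y + t • v) (𝓝[>] 0) (𝓝 y) :=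
  (Continuous.tendsto' (by fun_prop) _ _ (by simp)).mono_left nhdsWithin_le_nhds

/-- the lines in the directions of growth enter the set where the function is positive -/
theorem side (hu : DifferentiableAt ℝ u y) (h0 : 0 ≤ u y)
    (hv : 0 < (fun i => pd i u y) ⬝ᵥ fun i => v i) : ∀ᶠ t : ℝ in 𝓝[>] 0, 0 < u (y + t • v) := by
  have h := ((hd_line hu v).tendsto_slope_zero_right).eventually (lt_mem_nhds hv)
  filter_upwards [h, self_mem_nhdsWithin] with t ht t0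
  simp only [zero_add, zero_smul, add_zero, smul_eq_mul] at ht
  have := (mul_pos_iff_of_pos_left (inv_pos.2 t0)).1 ht
  linarith

theorem side_nn (hu : DifferentiableAt ℝ u y) (h0 : 0 ≤ u y) (hf : DifferentiableAt ℝ f y)
    (f0 : f y ≤ 0) (h : ∀ᶠ z in 𝓝 y, 0 < u z → 0 ≤ f z)
    (hv : 0 < (fun i => pd i u y) ⬝ᵥ fun i => v i) : 0 ≤ (fun i => pd i f y) ⬝ᵥ fun i => v i := by
  refine ge_of_tendsto (hd_line hf v).tendsto_slope_zero_right ?_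
  filter_upwards [side hu h0 hv, (tend_line y v).eventually h, self_mem_nhdsWithin] with t h1 h2 t0
  simp only [zero_add, zero_smul, add_zero, smul_eq_mul]
  exact mul_nonneg (inv_pos.2 t0).le (by linarith [h2 h1])

theorem side_prop (hu : DifferentiableAt ℝ u y) (h0 : 0 ≤ u y) (hd : ∃ i, pd i u y ≠ 0)
    (hf : DifferentiableAt ℝ f y) (f0 : f y ≤ 0) (h : ∀ᶠ z in 𝓝 y, 0 < u z → 0 ≤ f z) :
    ∃ β ≥ (0 : ℝ), (fun i => pd i f y) = β • fun i => pd i u y :=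
  prop_alg (fun k => hd.elim fun i hi => hi (congrFun k i)) fun v hv =>
    side_nn (v := WithLp.toLp 2 v) hu h0 hf f0 h hv

theorem side_freq (hu : DifferentiableAt ℝ u y) (h0 : 0 ≤ u y) (hd : ∃ i, pd i u y ≠ 0) :
    ∃ᶠ z in 𝓝 y, 0 < u z :=
  (tend_line y (WithLp.toLp 2 fun i => pd i u y)).frequently (side hu h0
    ((dotProduct_self_star_pos_iff (v := fun i => pd i u y)).2
      fun k => hd.elim fun i hi => hi (congrFun k i))).frequently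

end Side

end Vale.Agent.P366HB
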