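import Vale.Agent.P366RB.Defs

/-!
# P366HB: the frontier of the static region. Definitions in a chart, and the pieces SYS and MOTS.
-/

open Filter Topology Set
open scoped ContDiff
open Vale.Agent.P366 Vale.Agent.P366.Stmt
open Vale.Agent.P366RB (sq lo cK)

noncomputable section

namespace Vale.Agent.P366HB

variable {n : ℕ}

/-- vacuum Killing initial data at the point `y`: `P366RB.Kid` without staticity -/
structure Kd (g K a : Field n) (N : E n → ℝ) (X p : Fin n → E n → ℝ) (y : E n) : Prop where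
  smN : ContDiffAt ℝ ∞ N y
  smX : ∀ i, ContDiffAt ℝ ∞ (X i) y
  smp : ∀ i, ContDiffAt ℝ ∞ (p i) y
  N0 : 0 < N y
  l0 : sq g X y < N y ^ 2
  sk : ∀ i j, a y i j = -a y j i
  dN : ∀ i, pd i N y = p i y - ∑ j, K y i j * X j y
  dX : ∀ i j, ∑ k, g y j k * (pd i (X k) y + ∑ l, chr g k i l y * X l y) = a y i j - N y * K y i j
  dp : ∀ i j, pd i (p j) y - ∑ l, chr g l i j y * p l y =
    N y * (P366Y.C.rc g y i j + tr g K y * K y i j - ∑ k, ∑ l, up g k l y * K y i k * K y l j) +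
      ∑ k, X k y * (cK g K i j k y - cK g K k i j y) - ∑ k, ∑ l, up g k l y * K y i k * a y j l

/-- the state space: `(N, X, p, a)` -/
abbrev Vn (n : ℕ) : Type := ℝ × (Fin n → ℝ) × (Fin n → ℝ) × (Fin n → Fin n → ℝ)

/-- the state -/
def ZZ (a : Field n) (N : E n → ℝ) (X p : Fin n → E n → ℝ) (y : E n) : Vn n :=
  (N y, fun i => X i y, fun i => p i y, a y)

/-- the state solves the linear system with the smooth coefficient `A` -/
structure Lin (g K : Field n) (A : E n → E n →L[ℝ] Vn n →L[ℝ] Vn n) : Prop where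
  sm : ContDiff ℝ ∞ A
  sol : ∀ a N X p y, (∀ᶠ z in 𝓝 y, Kd g K a N X p z) →
    HasFDerivAt (ZZ a N X p) ((A y).flip (ZZ a N X p y)) y
  dN : ∀ y v z, (A y v z).1 = ∑ i, v i * (z.2.2.1 i - ∑ j, K y i j * z.2.1 j)
  dX : ∀ y v z k, (A y v z).2.1 k = ∑ i, v i *
    (∑ j, up g k j y * (z.2.2.2 i j - z.1 * K y i j) - ∑ l, chr g k i l y * z.2.1 l)

/-- **SYS**: the system is of finite type -/
def SYS : Prop := ∀ (n : ℕ) (g K : Field n), P366Z.Met g → (∀ i j, Smooth fun z => K z i j) →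
  (∀ z i j, K z i j = K z j i) → ∃ A, Lin g K A

/-- **MOTS**: a section of the horizon is marginally trapped -/
def MOTS : Prop := ∀ (n : ℕ) (g K a : Field n) (N u : E n → ℝ) (X p : Fin n → E n → ℝ) (y : E n),
  P366Z.Met g → (∀ i j, Smooth fun z => K z i j) → (∀ z i j, K z i j = K z j i) → Smooth N →
  (∀ i, Smooth (X i)) → (∀ i, Smooth (p i)) → (∀ i j, Smooth fun z => a z i j) →
  (∀ᶠ z in 𝓝 y, ContDiffAt ℝ ∞ u z) → u y = 0 → (∃ i, pd i u y ≠ 0) →
  (∀ᶠ z in 𝓝 y, (0 < u z → Kd g K a N X p z) ∧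
    (u z = 0 → (∀ i, X i z = N z * nrm g u i z) ∧ ∃ i, p i z ≠ 0)) →
  thetaPlus g K u y = 0

end Vale.Agent.P366HB
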