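import Vale.Agent.P366HB.Hd

/-!
# P366HB: the frontier is a smooth section of the future horizon near nondegenerate points
-/

open Filter Topology Set Matrix Metric
open scoped ContDiff
open Vale.Agent.P366.Stmt Vale.Agent.P366Z
open Vale.Agent.P366RB (lo)

noncomputable section

namespace Vale.Agent.P366HB

variable {n : ℕ} {g K a : Field n} {N u : E n → ℝ} {X p : Fin n → E n → ℝ} {O W : Set (E n)}
  {c e x y y₀ v : E n} {q : E n × Vn n} {A : E n → E n →L[ℝ] Vn n →L[ℝ] Vn n} {Z : E n → Vn n}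
  {Φ : E n × Vn n × E n → Vn n} {z₀ : Vn n} {ι : Type} {φ : ι → E n × Vn n → ℝ}
  {S : Set (E n × Vn n)} {r δ : ℝ}

/-- the twist vanishes on `O` -/
def Sta (g a : Field n) (N : E n → ℝ) (X p : Fin n → E n → ℝ) (O : Set (E n)) : Prop :=
  ∀ y ∈ O, ∀ i j, N y * a y i j = p i y * lo g X j y - lo g X i y * p j y

theorem Fr.cs (F : Fr g K a N X p O) (st : Sta g a N X p O)
    (hq : q ∈ closure (Gr (ZZ a N X p) O)) :
    sN q * ww q ⬝ᵥ (mat g q.1)⁻¹ *ᵥ sp q = sN q ^ 2 * w0 g q ∧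
      sN q ^ 2 * w0 g q = pq g q * lam g q + pX q ^ 2 ∧ w0 g q ≤ pq g q := by
  have hg := F.met
  have k : ∀ y ∈ O, sN (y, ZZ a N X p y) ^ 2 * w0 g (y, ZZ a N X p y) =
      pq g (y, ZZ a N X p y) * lam g (y, ZZ a N X p y) + pX (y, ZZ a N X p y) ^ 2 := fun y hy => by
    have := st_nsq (a := a y) (X := fun i => X i y) (p := fun i => p i y) (hg.pos y) (st y hy)
    simp only [w0, pq, lam, pX, sN, sX, sp, sa, ZZ]
    linear_combination (-1 / 2 : ℝ) * this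
  refine ⟨cl_of hq (isClosed_eq (cd_sN.mul (cd_dot cd_ww (cd_mv (cd_up hg) cd_sp))).continuous
    ((cd_sN.pow 2).mul (cd_w0 hg)).continuous) fun y hy => ?_,
    cl_of hq (isClosed_eq ((cd_sN.pow 2).mul (cd_w0 hg)).continuous
    (((cd_pq hg).mul (cd_lam hg)).add (cd_pX.pow 2)).continuous) k,
    cl_of hq (isClosed_le (cd_w0 hg).continuous (cd_pq hg).continuous) fun y hy => ?_⟩
  · have := congrArg (· ⬝ᵥ (mat g y)⁻¹ *ᵥ fun i => p i y)
      (st_vec (G := mat g y) (a := a y) (X := fun i => X i y) (p := fun i => p i y) (st y hy))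
    simp only [add_dotProduct, smul_dotProduct, smul_eq_mul, dot_sy (hg.pos y).inv (_ *ᵥ _),
      inv_mul_vec (hg.pos y)] at this
    refine this.trans (Eq.trans ?_ (k y hy).symm)
    rw [mul_comm, ← sq]
    rfl
  · have h1 := k y hy
    have h2 : pX (y, ZZ a N X p y) ^ 2 ≤ pq g (y, ZZ a N X p y) * _ := cs_alg (hg.pos y) _ _
    rw [lam] at h1
    exact le_of_mul_le_mul_left (a := sN (y, ZZ a N X p y) ^ 2) (by linarith)
      (pow_pos (F.kd y hy).N0 2)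

/-- the extension of the state, and the defining function of the frontier -/
structure Ex (g a : Field n) (N : E n → ℝ) (X p : Fin n → E n → ℝ) (O W : Set (E n)) (y₀ : E n)
    (z₀ : Vn n) (Z : E n → Vn n) (u : E n → ℝ) (c : E n) : Prop where
  sm : ContDiff ℝ ∞ Z
  z0 : Z y₀ = z₀
  u0 : u y₀ = 0
  du : ∃ i, pd i u y₀ ≠ 0
  ev : ∀ᶠ y in 𝓝 y₀, ContDiffAt ℝ ∞ u y ∧
    (0 < u y → Vis (O ∩ W) c y ∧ Z =ᶠ[𝓝 y] ZZ a N X p) ∧ (u y = 0 → y ∉ O ∧
      (sX (y, Z y) = fun i => sN (y, Z y) * nrm g u i y) ∧ sp (y, Z y) ≠ 0)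
  seq : ∀ᶠ q in 𝓝 (y₀, z₀), q ∈ Gr (ZZ a N X p) O → 0 < u q.1
  kap : 0 ≤ (sp (y₀, z₀) ⬝ᵥ fun i => nrm g u i y₀) ∧
    w0 g (y₀, z₀) ≤ (sp (y₀, z₀) ⬝ᵥ fun i => nrm g u i y₀) ^ 2

theorem pd_ne (hu : DifferentiableAt ℝ u y) (h : 0 < fderiv ℝ u y v) : ∃ i, pd i u y ≠ 0 := by
  by_contra! k
  simp [fderiv_eq_sum hu, k] at h

/-- touching by a function whose positivity set is visible -/
theorem Fr.touch' (F : Fr g K a N X p O) (h : Lin g K A) (P : Pg A Φ) (hu : DifferentiableAt ℝ u y)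
    (h0 : 0 ≤ u y) (hd : ∃ i, pd i u y ≠ 0) (hy : y ∉ O)
    (hs : ∀ᶠ z in 𝓝 y, 0 < u z → Vis O c z) (hq : q = (y, Φ (c, ZZ a N X p c, y))) :
    q ∈ closure (Gr (ZZ a N X p) O) ∧ (∃ β ≥ (0 : ℝ), ww q = β • fun i => pd i u y) ∧
      (sN q = 0 → ∃ β ≥ (0 : ℝ), sp q = β • fun i => pd i u y) ∧
      ((sX q = fun i => sN q * nrm g u i y) ∨ ww q = 0) :=
  hq ▸ F.touch h (P.sol F.op (F.sol h) c y (mem_closure_iff_frequently.2
    (((side_freq hu h0 hd).and_eventually hs).mono fun _ k => k.2 k.1))) hu h0 hd hy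
    (hs.mono fun _ k k0 => ⟨(k k0).mem, (P.vis (F.sol h) (k k0)).symm⟩)

theorem dot_nrm (hg : Met g) (hd : ∃ i, pd i u y ≠ 0) : ∃ m > (0 : ℝ),
    (fun i => pd i u y) ⬝ᵥ (mat g y)⁻¹ *ᵥ (fun i => pd i u y) = m ^ 2 ∧
      (fun i => pd i u y) ⬝ᵥ (fun i => nrm g u i y) = m := by
  have h0 := q_pos (hg.pos y).inv (X := fun i => pd i u y)
    fun k => hd.elim fun i hi => hi (congrFun k i)
  have h1 := nrm_eq g u y 1
  simp only [one_mul] at h1
  refine ⟨_, Real.sqrt_pos.2 h0, (Real.sq_sqrt h0.le).symm, ?_⟩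
  rw [h1, dotProduct_smul, smul_eq_mul, one_div, inv_mul_eq_div, Real.div_sqrt]

theorem Fr.ext_of (F : Fr g K a N X p O) (h : Lin g K A) (P : Pg A Φ) (st : Sta g a N X p O)
    (R : Nr A Φ (ZZ a N X p) O φ S y₀ z₀ e r δ) (s : ι)
    (hS : ∀ q ∈ S, q.1 ∈ W ∧ 0 < w0 g q ∧ ContDiffAt ℝ ∞ (φ s) q) (h0 : φ s (y₀, z₀) = 0)
    (hq : (y₀, z₀) ∈ closure (Gr (ZZ a N X p) O))
    (key : ∀ c ∈ ball y₀ r, c ∈ O → ZZ a N X p c ∈ ball z₀ r → ∀ w ∈ Cn c e y₀ r δ,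
      0 < φ s (w, Φ (c, ZZ a N X p c, w)) → Vis O c w) :
    ∃ Z u c, Ex g a N X p O W y₀ z₀ Z u c := by
  obtain ⟨c, c1, c2, c3, c4, c5, c6⟩ := R.top P F.op (F.sol h) hq
  have sm := P.sm3 c (ZZ a N X p c)
  have k0 : ∀ y ∈ Cn c e y₀ r δ, ContDiffAt ℝ ∞ (fun y => φ s (y, Φ (c, ZZ a N X p c, y))) y :=
    fun y hy => ContDiffAt.comp (f := fun y => (y, Φ (c, ZZ a N X p c, y))) y
      (hS _ (R.mem c c1 _ c3 y hy.1)).2.2 (contDiffAt_id.prodMk sm.contDiffAt)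
  have k1 : ∀ y ∈ Cn c e y₀ r δ, φ s (y, Φ (c, ZZ a N X p c, y)) = 0 →
      (∃ i, pd i (fun y => φ s (y, Φ (c, ZZ a N X p c, y))) y ≠ 0) ∧ y ∉ O ∧ _ := fun y hy k => by
    have d := (k0 y hy).differentiableAt (by simp)
    have d1 := pd_ne d (R.der P c1 c3 hy s k.le)
    have v1 : ∀ᶠ z in 𝓝 y, 0 < φ s (z, Φ (c, ZZ a N X p c, z)) → Vis O c z :=
      mem_of_superset ((cn_open c e y₀ r δ).mem_nhds hy) (key c c1 c2 c3)
    have o1 : y ∉ O := fun o => (R.pos _ (R.mem c c1 _ c3 y hy.1) ⟨o,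
      tendsto_nhds_unique_of_frequently_eq sm.continuous.continuousAt (F.sol h y o).continuousAt
        (((side_freq d k.ge d1).and_eventually v1).mono fun z k =>
          (P.vis (F.sol h) (k.2 k.1)).symm)⟩ s).ne' k
    exact ⟨d1, o1, F.touch' h P d k.ge d1 o1 v1 rfl⟩
  have k2 : ∀ y ∈ Cn c e y₀ r δ, φ s (y, Φ (c, ZZ a N X p c, y)) = 0 →
      sX (y, Φ (c, ZZ a N X p c, y)) = fun i => sN (y, Φ (c, ZZ a N X p c, y)) *
        nrm g (fun y => φ s (y, Φ (c, ZZ a N X p c, y))) i y := fun y hy k => by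
    obtain ⟨-, o1, t1, -, -, t2⟩ := k1 y hy k
    refine t2.elim id fun t2 => ?_
    have t3 := (F.cs st t1).1
    rw [t2, zero_dotProduct, mul_zero, zero_eq_mul] at t3
    have t4 := pow_eq_zero_iff two_ne_zero |>.1
      (t3.resolve_right (hS _ (R.mem c c1 _ c3 y hy.1)).2.1.ne')
    rw [x_zero F.met ((F.cl t1).2.2.2.2.2 o1) t4, t4]
    funext i
    simp
  have u0 : φ s (y₀, Φ (c, ZZ a N X p c, y₀)) = 0 := by rwa [c4]
  have m0 := (cn_open c e y₀ r δ).mem_nhds c5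
  refine ⟨_, _, c, sm, c4, u0, (k1 y₀ c5 u0).1, mem_of_superset m0 fun y hy => ⟨k0 y hy,
    fun k => ⟨fun t ht => ⟨key c c1 c2 c3 y hy k t ht, (hS _ (R.mem c c1 _ c3 _
      ((convex_ball y₀ r).add_smul_sub_mem c1 hy.1 ht))).1⟩, mem_of_superset
      ((vis_open F.op c).mem_nhds (key c c1 c2 c3 y hy k)) fun z hz => (P.vis (F.sol h) hz).symm⟩,
    fun k => ⟨(k1 y hy k).2.1, k2 y hy k, fun t => ?_⟩⟩, ?_, ?_⟩
  · have := (hS _ (R.mem c c1 _ c3 y hy.1)).2.1.trans_le (F.cs st (k1 y hy k).2.2.1).2.2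
    simp [pq, t] at this
  · filter_upwards [c6, (continuous_fst.tendsto (y₀, z₀)).eventually m0] with q q1 q2 q3
    exact (R.vis P F.op (F.sol h) c1 c2 c3 q2).1 (q1 q3) s
  obtain ⟨d1, o1, t1, ⟨β, β0, t2⟩, t3, -⟩ := k1 y₀ c5 u0
  have t4 := k2 y₀ c5 u0
  obtain ⟨m, m0, m1, m2⟩ := dot_nrm F.met d1
  rw [c4] at t1 t2 t3 t4
  obtain ⟨-, -, -, N0, sk, l0⟩ := F.cl t1
  obtain ⟨-, s2, s3⟩ := F.cs st t1
  rcases N0.eq_or_lt with k | k
  · obtain ⟨γ, γ0, t5⟩ := t3 k.symm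
    rw [pq, t5, mulVec_smul, smul_dotProduct, dotProduct_smul, m1] at s3
    rw [t5, smul_dotProduct, m2]
    exact ⟨mul_nonneg γ0 m0.le, s3.trans_eq (by simp only [smul_eq_mul]; ring)⟩
  · have e1 := ww_dot sk
    have e2 : ∀ η : Fin n → ℝ, η ⬝ᵥ sX (y₀, z₀) = sN (y₀, z₀) * η ⬝ᵥ fun i => nrm g
        (fun y => φ s (y, Φ (c, ZZ a N X p c, y))) i y₀ := fun η => by
      rw [t4]; exact dotProduct_smul (sN (y₀, z₀)) η _
    rw [pX, e2] at s2
    rw [pX, e2, e2, t2, smul_dotProduct, m2, smul_eq_mul] at e1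
    rw [l0 o1, mul_zero, zero_add, mul_pow] at s2
    refine ⟨nonneg_of_mul_nonneg_right (nonneg_of_mul_nonneg_right (e1 ▸ by positivity) k) k,
      (mul_left_cancel₀ (by positivity) s2).le⟩

/-- the two null components of the Killing field -/
def ph (g : Field n) (s : Bool) (q : E n × Vn n) : ℝ := √(w0 g q) * sN q + cond s (-1) 1 * pX q

theorem cd_ph (hg : Met g) (s : Bool) (h : 0 < w0 g q) : ContDiffAt ℝ ∞ (ph g s) q :=
  (((cd_w0 hg).contDiffAt.sqrt h.ne').mul cd_sN.contDiffAt).add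
    (contDiffAt_const.mul cd_pX.contDiffAt)

theorem ph_mul (h : 0 < w0 g q) : ph g true q * ph g false q = sN q ^ 2 * w0 g q - pX q ^ 2 := by
  simp only [ph, cond]
  linear_combination sN q ^ 2 * Real.sq_sqrt h.le

theorem Lin.dph (h : Lin g K A) (hg : Met g) (hw : 0 < w0 g q) (k : sN q = 0) (k' : sX q = 0)
    (sk : ∀ i j, sa q i j = -sa q j i) (s : Bool) :
    dA A (ph g s) q (WithLp.toLp 2 ((mat g q.1)⁻¹ *ᵥ sp q)) = √(w0 g q) * pq g q := by
  have d0 := (((cd_w0 hg).contDiffAt.sqrt hw.ne').differentiableAt (by simp)).hasFDerivAt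
  have dz : HasFDerivAt Prod.snd (ContinuousLinearMap.snd ℝ (E n) (Vn n)) q := hasFDerivAt_snd
  have d1 : HasFDerivAt sN _ q := dz.fst
  have d2 : ∀ i, HasFDerivAt (fun q => sX q i) _ q := hasFDerivAt_pi'.1 dz.snd.fst
  have d3 : ∀ i, HasFDerivAt (fun q => sp q i) _ q := hasFDerivAt_pi'.1 dz.snd.snd.fst
  have d4 : HasFDerivAt pX _ q :=
    HasFDerivAt.fun_sum (u := Finset.univ) fun i _ => (d3 i).fun_mul (d2 i)
  have d : HasFDerivAt (ph g s) _ q := (d0.fun_mul d1).fun_add (d4.const_mul (cond s (-1) 1))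
  have e1 := h.dN q.1 (WithLp.toLp 2 ((mat g q.1)⁻¹ *ᵥ sp q)) q.2
  have e2 := h.dX q.1 (WithLp.toLp 2 ((mat g q.1)⁻¹ *ᵥ sp q)) q.2
  have e3 : ∑ l, sp q l * ∑ i, ((mat g q.1)⁻¹ *ᵥ sp q) i * ∑ j, up g l j q.1 * sa q i j = 0 := by
    rw [← skew_dot sk ((mat g q.1)⁻¹ *ᵥ sp q), dotProduct]
    simp only [Finset.mul_sum]
    rw [Finset.sum_comm]
    refine Finset.sum_congr rfl fun i _ => ?_
    rw [Finset.sum_comm]
    simp only [mulVec, dotProduct, Finset.mul_sum]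
    exact Finset.sum_congr rfl fun j _ => Finset.sum_congr rfl fun l _ => by
      rw [hg.up_sy l j]; unfold up; ring
  simp only [show q.2.1 = 0 from k, show q.2.2.1 = 0 from k', Pi.zero_apply, mul_zero, zero_mul,
    Finset.sum_const_zero, sub_zero] at e1 e2
  rw [dA, d.fderiv]
  simp [k, k', e1, e2]
  rw [show ∑ l, sp q l * ∑ i, ((mat g q.1)⁻¹ *ᵥ sp q) i * ∑ j, up g l j q.1 * q.2.2.2.2 i j = 0
    from e3, mul_zero, add_zero, pq, dotProduct_comm]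
  rfl

theorem Lin.dlam (h : Lin g K A) (hg : Met g) (q : E n × Vn n) (v : E n) :
    dA A (lam g) q v = 2 * ww q ⬝ᵥ fun i => v i := by
  obtain ⟨y, z⟩ := q
  have d : HasFDerivAt (fun w => z + (A y).flip z (w - y)) ((A y).flip z) y := by
    simpa using (((A y).flip z).hasFDerivAt.comp y ((hasFDerivAt_id y).sub_const y)).const_add z
  have e : z + (A y).flip z (y - y) = z := by simp
  have d' : HasFDerivAt (fun w => z + (A y).flip z (w - y))
      ((A y).flip (z + (A y).flip z (y - y))) y := by rwa [e]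
  have := dA_eq ((cd_lam hg).differentiable (by simp) _) d' v
  rw [(h.der hg d').2, e, smul_dotProduct] at this
  exact this

/-- **the structure of the frontier** -/
theorem Fr.ext (F : Fr g K a N X p O) (h : Lin g K A) (st : Sta g a N X p O)
    (hq : (y₀, z₀) ∈ closure (Gr (ZZ a N X p) O)) (hy : y₀ ∉ O) (hw : 0 < w0 g (y₀, z₀))
    (hW : W ∈ 𝓝 y₀) : ∃ Z u c, Ex g a N X p O W y₀ z₀ Z u c := by
  obtain ⟨Φ, P⟩ := exists_pg h.sm
  have hg := F.met
  obtain ⟨-, -, -, N0, sk, l0⟩ := F.cl hq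
  obtain ⟨s1, -, s3⟩ := F.cs st hq
  have w1 : ∀ᶠ q in 𝓝 (y₀, z₀), 0 < w0 g q :=
    (cd_w0 hg).continuous.continuousAt.eventually (lt_mem_nhds hw)
  have hS : {q | q.1 ∈ W ∧ 0 < w0 g q} ∈ 𝓝 (y₀, z₀) :=
    ((continuous_fst.tendsto (y₀, z₀)).eventually hW).and w1
  rcases N0.eq_or_lt with k | k
  · have k' := x_zero hg (l0 hy) k.symm
    obtain ⟨S, S1, r, δ, R⟩ := exists_nr (Z := ZZ a N X p) (O := O) (φ := ph g) P
      (fun s => ⟨(cd_ph hg s hw).of_le (by simp), Or.inr (by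
        rw [h.dph hg hw k.symm k' sk]
        exact mul_pos (Real.sqrt_pos.2 hw) (hw.trans_le s3))⟩)
      (w1.mono fun q q1 q2 s => by
        obtain ⟨-, t2, t3⟩ := F.cs st (subset_closure q2)
        have t4 : 0 < lam g q := by
          rw [show q = (q.1, ZZ a N X p q.1) from Prod.ext rfl q2.2]; exact F.pos q2.1
        have t5 := abs_lt.1 (abs_lt_of_sq_lt_sq (a := pX q) (b := √(w0 g q) * sN q) (by
          rw [mul_pow, Real.sq_sqrt q1.le]; linarith [mul_pos (q1.trans_le t3) t4])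
          (mul_nonneg (Real.sqrt_nonneg _) (F.cl (subset_closure q2)).2.2.2.1))
        cases s <;> simp only [ph, cond] <;> linarith)
      (w1.mono fun q q1 q2 q3 => by
        have t := ph_mul q1
        rw [(F.cs st q2).2.1, (F.cl q2).2.2.2.2.2 q3, mul_zero, zero_add, sub_self,
          mul_eq_zero] at t
        exact t.elim (fun t => ⟨_, t.le⟩) fun t => ⟨_, t.le⟩) hS
    refine F.ext_of h P st R true (fun q hq => ⟨(S1 hq).1, (S1 hq).2, cd_ph hg _ (S1 hq).2⟩)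
      (by simp [ph, pX, ← k, k']) hq fun c c1 c2 c3 w hw k0 => by_contra fun k1 => ?_
    obtain ⟨t, ht, o1, o2⟩ := exit F.op c2 k1
    have m1 := cn_star c1 hw ht
    have k2 := R.up P c1 c3 hw true k0 ⟨ht.1.le, ht.2⟩
    have t1 := P.lim_mem (F.sol h) ht.1 o2
    generalize c + t • (w - c) = y at *
    have q1 := (S1 (R.mem c c1 _ c3 y m1.1)).2
    have t := ph_mul q1
    rw [(F.cs st t1).2.1, (F.cl t1).2.2.2.2.2 o1, mul_zero, zero_add, sub_self, mul_eq_zero] at t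
    have k3 := t.resolve_left k2.ne'
    have d : ∀ s, DifferentiableAt ℝ (fun y => ph g s (y, Φ (c, ZZ a N X p c, y))) y := fun s =>
      DifferentiableAt.comp (f := fun y => (y, Φ (c, ZZ a N X p c, y))) y
        ((cd_ph hg s q1).differentiableAt (by simp))
        (differentiableAt_id.prodMk ((P.sm3 c _).differentiable (by simp) y))
    have d1 := pd_ne (d false) (R.der P c1 c3 m1 false k3.le)
    obtain ⟨-, ⟨β, β0, t2⟩, -, t3⟩ := F.touch' h P (d false) k3.ge d1 o1 (by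
      filter_upwards [(cn_open c _ y₀ r δ).mem_nhds m1,
        (d true).continuousAt.eventually (lt_mem_nhds k2)] with z z1 z2 z3
      exact (R.vis P F.op (F.sol h) c1 c2 c3 z1).2 fun s => by cases s <;> assumption) rfl
    obtain ⟨m, m0, -, m2⟩ := dot_nrm hg d1
    have e1 := ww_dot (F.cl t1).2.2.2.2.1
    have N1 := (F.cl t1).2.2.2.1
    generalize Φ (c, ZZ a N X p c, y) = z at *
    simp only [ph, cond] at k2 k3
    have k4 : pX (y, z) < 0 := by linarith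
    have k5 : 0 < sN (y, z) := N1.lt_of_ne fun k => by rw [← k] at k3; linarith
    refine (mul_neg_of_pos_of_neg k5 k4).not_ge (e1 ▸ ?_)
    rcases t3 with t3 | t3
    · rw [t3, t2, smul_dotProduct, show (fun i => sN (y, z) * _) = sN (y, z) • _ from rfl,
        dotProduct_smul, m2]
      positivity
    · simp [t3]
  · obtain ⟨S, S1, r, δ, R⟩ := exists_nr (Z := ZZ a N X p) (O := O) (φ := fun _ : Unit => lam g)
      (e := WithLp.toLp 2 ((mat g y₀)⁻¹ *ᵥ sp (y₀, z₀))) P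
      (fun _ => ⟨(cd_lam hg).contDiffAt.of_le (by simp), Or.inr (by
        rw [h.dlam hg]
        exact mul_pos two_pos (pos_of_mul_pos_right
          ((mul_pos (pow_pos k 2) hw).trans_eq s1.symm) k.le))⟩)
      (Eventually.of_forall fun q q2 _ => by
        rw [show q = (q.1, ZZ a N X p q.1) from Prod.ext rfl q2.2]; exact F.pos q2.1)
      (Eventually.of_forall fun q q2 q3 => ⟨(), ((F.cl q2).2.2.2.2.2 q3).le⟩) hS
    exact F.ext_of h P st R () (fun q hq => ⟨(S1 hq).1, (S1 hq).2, (cd_lam hg).contDiffAt⟩)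
      (l0 hy) hq fun c c1 c2 c3 w hw k0 => (R.vis P F.op (F.sol h) c1 c2 c3 hw).2 fun _ => k0

end Vale.Agent.P366HB
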