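import Vale.Agent.P366HB.Rad

/-!
# P366HB: the structure of the domain near a nondegenerate point of the frontier
-/

set_option maxSynthPendingDepth 3

open Filter Topology Set Metric
open scoped ContDiff

noncomputable section

namespace Vale.Agent.P366HB

variable {E V ι : Type} [NormedAddCommGroup E] [NormedSpace ℝ E] [NormedAddCommGroup V]
  [NormedSpace ℝ V] {A : E → E →L[ℝ] V →L[ℝ] V} {Φ : E × V × E → V} {Z : E → V} {O : Set E}
  {c y v e y₀ : E} {z z₀ : V} {φ : ι → E × V → ℝ}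

/-- the graph of `Z` over `O` -/
def Gr (Z : E → V) (O : Set E) : Set (E × V) := {q | q.1 ∈ O ∧ q.2 = Z q.1}

/-- the derivative of `f` along the solutions -/
def dA (A : E → E →L[ℝ] V →L[ℝ] V) (f : E × V → ℝ) (q : E × V) (v : E) : ℝ :=
  fderiv ℝ f q (v, A q.1 v q.2)

theorem Pg.hd (h : Pg A Φ) {f : E × V → ℝ} {t : ℝ}
    (hf : DifferentiableAt ℝ f (c + t • v, Φ (c, z, c + t • v))) :
    HasDerivAt (fun s : ℝ => f (c + s • v, Φ (c, z, c + s • v)))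
      (dA A f (c + t • v, Φ (c, z, c + t • v)) v) t :=
  hf.hasFDerivAt.comp_hasDerivAt t ((hd_ray c v t).prodMk (h.der c z v t))

theorem Pg.lim_mem (h : Pg A Φ) (hZ : Sol A Z O) {t : ℝ} (ht : 0 < t)
    (hs : ∀ s ∈ Ico 0 t, c + s • v ∈ O) :
    (c + t • v, Φ (c, Z c, c + t • v)) ∈ closure (Gr Z O) :=
  mem_closure_of_tendsto (h.lim hZ ht hs).1 ((h.lim hZ ht hs).2.mono fun _ h => ⟨h, rfl⟩)

/-- the data near the point -/
structure Nr (A : E → E →L[ℝ] V →L[ℝ] V) (Φ : E × V × E → V) (Z : E → V) (O : Set E)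
    (φ : ι → E × V → ℝ) (W : Set (E × V)) (y₀ : E) (z₀ : V) (e : E) (r δ : ℝ) : Prop where
  r0 : 0 < r
  δ0 : 0 < δ
  mem : ∀ c ∈ ball y₀ r, ∀ z ∈ ball z₀ r, ∀ y ∈ ball y₀ r, (y, Φ (c, z, y)) ∈ W
  df : ∀ q ∈ W, ∀ s, DifferentiableAt ℝ (φ s) q
  alt : ∀ s, (∀ q ∈ W, 0 < φ s q) ∨ ∀ q ∈ W, ∀ v ∈ ball e δ, 0 < dA A (φ s) q v
  pos : ∀ q ∈ W, q ∈ Gr Z O → ∀ s, 0 < φ s q
  fr : ∀ q ∈ W, q ∈ closure (Gr Z O) → q.1 ∉ O → ∃ s, φ s q ≤ 0

theorem exists_nr [Finite ι] (h : Pg A Φ)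
    (hφ : ∀ s, ContDiffAt ℝ 1 (φ s) (y₀, z₀) ∧ (0 < φ s (y₀, z₀) ∨ 0 < dA A (φ s) (y₀, z₀) e))
    (pos : ∀ᶠ q in 𝓝 (y₀, z₀), q ∈ Gr Z O → ∀ s, 0 < φ s q)
    (fr : ∀ᶠ q in 𝓝 (y₀, z₀), q ∈ closure (Gr Z O) → q.1 ∉ O → ∃ s, φ s q ≤ 0)
    {W : Set (E × V)} (hW : W ∈ 𝓝 (y₀, z₀)) :
    ∃ W' ⊆ W, ∃ r δ, Nr A Φ Z O φ W' y₀ z₀ e r δ := by
  have h1 : ∀ s, ∀ᶠ x in 𝓝 ((y₀, z₀), e), (0 < φ s (y₀, z₀) → 0 < φ s x.1) ∧
      (0 < dA A (φ s) (y₀, z₀) e → 0 < dA A (φ s) x.1 x.2) := by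
    intro s
    have c1 : ContinuousAt (fun x : (E × V) × E => φ s x.1) ((y₀, z₀), e) :=
      ContinuousAt.comp (f := Prod.fst) (hφ s).1.continuousAt continuousAt_fst
    have c2 : ContinuousAt (fun x : (E × V) × E => dA A (φ s) x.1 x.2) ((y₀, z₀), e) :=
      (ContinuousAt.comp (f := Prod.fst) ((hφ s).1.continuousAt_fderiv one_ne_zero)
        continuousAt_fst).clm_apply (continuousAt_snd.prodMk
          (((h.cA.comp (by fun_prop)).clm_apply continuous_snd).clm_apply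
            (by fun_prop)).continuousAt)
    refine Eventually.and ?_ ?_
    · by_cases h0 : 0 < φ s (y₀, z₀)
      · exact (c1.eventually (lt_mem_nhds h0)).mono fun _ h _ => h
      · exact Eventually.of_forall fun _ h => absurd h h0
    · by_cases h0 : 0 < dA A (φ s) (y₀, z₀) e
      · exact (c2.eventually (lt_mem_nhds h0)).mono fun _ h _ => h
      · exact Eventually.of_forall fun _ h => absurd h h0
  have h2 := eventually_all.2 h1
  rw [nhds_prod_eq, eventually_prod_iff] at h2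
  obtain ⟨P, hP, Q, hQ, h2⟩ := h2
  obtain ⟨δ, δ0, hδ⟩ := Metric.eventually_nhds_iff_ball.1 hQ
  have h3 : ∀ᶠ q in 𝓝 (y₀, z₀), ∀ s, DifferentiableAt ℝ (φ s) q := eventually_all.2 fun s =>
    ((hφ s).1.eventually (by simp)).mono fun _ h => h.differentiableAt one_ne_zero
  have h4 := (hP.and (h3.and (pos.and fr))).and hW
  have h5 : Tendsto (fun q : E × V × E => (q.2.2, Φ q)) (𝓝 (y₀, z₀, y₀)) (𝓝 (y₀, z₀)) := by
    have := (Continuous.prodMk (by fun_prop : Continuous fun q : E × V × E => q.2.2)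
      h.sm.continuous).tendsto (y₀, z₀, y₀)
    rwa [h.self] at this
  obtain ⟨r, r0, hr⟩ := Metric.eventually_nhds_iff_ball.1 (h5.eventually h4)
  refine ⟨{q | (P q ∧ (∀ s, DifferentiableAt ℝ (φ s) q) ∧ (q ∈ Gr Z O → ∀ s, 0 < φ s q) ∧
    (q ∈ closure (Gr Z O) → q.1 ∉ O → ∃ s, φ s q ≤ 0)) ∧ q ∈ W}, fun q hq => hq.2, r, δ, r0, δ0,
    fun c hc z hz y hy => hr (c, z, y) ?_,
    fun q hq => hq.1.2.1, fun s => ?_, fun q hq => hq.1.2.2.1, fun q hq => hq.1.2.2.2⟩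
  · rw [← ball_prod_same, ← ball_prod_same]
    exact ⟨hc, hz, hy⟩
  · exact (hφ s).2.imp (fun h0 q hq => (h2 hq.1.1 (hδ e (mem_ball_self δ0)) s).1 h0)
      fun h0 q hq v hv => (h2 hq.1.1 (hδ v hv) s).2 h0

variable {W : Set (E × V)} {r δ : ℝ}

theorem ray_mem {S : Set E} (hS : Convex ℝ S) {a b t : ℝ} (ha : c + a • v ∈ S) (hb : c + b • v ∈ S)
    (ht : t ∈ Icc a b) : c + t • v ∈ S := by
  obtain ⟨l, m, hl, hm, h, rfl⟩ := (Convex.mem_Icc (ht.1.trans ht.2)).1 ht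
  have := hS ha hb hl hm h
  obtain rfl : l = 1 - m := by linarith
  rwa [show (1 - m) • (c + a • v) + m • (c + b • v) = c + ((1 - m) * a + m * b) • v by module]
    at this

/-- positivity propagates along the rays in the directions of the cone -/
theorem Nr.mono (h : Pg A Φ) (N : Nr A Φ Z O φ W y₀ z₀ e r δ) (hc : c ∈ ball y₀ r)
    (hz : z ∈ ball z₀ r) (hv : v ∈ ball e δ) {a b : ℝ} (ha : c + a • v ∈ ball y₀ r)
    (hb : c + b • v ∈ ball y₀ r) (hab : a ≤ b) (s : ι)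
    (h0 : 0 < φ s (c + a • v, Φ (c, z, c + a • v))) : 0 < φ s (c + b • v, Φ (c, z, c + b • v)) := by
  have m : ∀ t ∈ Icc a b, (c + t • v, Φ (c, z, c + t • v)) ∈ W := fun t ht => by
    exact N.mem c hc z hz _ (ray_mem (convex_ball y₀ r) ha hb ht)
  rcases N.alt s with h1 | h1
  · exact h1 _ (m b ⟨hab, le_rfl⟩)
  have d := fun t ht => h.hd (N.df _ (m t ht) s)
  exact h0.trans_le (monotoneOn_of_deriv_nonneg (convex_Icc a b)
    (fun t ht => (d t ht).continuousAt.continuousWithinAt)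
    (fun t ht => (d t (interior_subset ht)).differentiableAt.differentiableWithinAt)
    (fun t ht => by
      rw [(d t (interior_subset ht)).deriv]
      exact (h1 _ (m t (interior_subset ht)) v hv).le) ⟨le_rfl, hab⟩ ⟨hab, le_rfl⟩ hab)

/-- a ray along which the functions are positive stays in the domain -/
theorem Nr.stay (h : Pg A Φ) (hO : IsOpen O) (hZ : Sol A Z O) (N : Nr A Φ Z O φ W y₀ z₀ e r δ)
    (hc : c ∈ ball y₀ r) (hcO : c ∈ O) (hz : Z c ∈ ball z₀ r) {b : ℝ}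
    (hb : c + b • v ∈ ball y₀ r)
    (hp : ∀ t ∈ Icc 0 b, ∀ s, 0 < φ s (c + t • v, Φ (c, Z c, c + t • v))) :
    ∀ t ∈ Icc 0 b, c + t • v ∈ O := by
  by_contra h1
  obtain ⟨t, ht, h2, h3⟩ := exit hO hcO h1
  obtain ⟨s, hs⟩ := N.fr _ (N.mem c hc _ hz _ (ray_mem (convex_ball y₀ r) (a := 0)
    (by simpa using hc) hb ⟨ht.1.le, ht.2⟩)) (h.lim_mem hZ ht.1 h3) h2
  exact (hp t ⟨ht.1.le, ht.2⟩ s).not_ge hs

/-- the cone below the point `c` -/
def Cn (c e y₀ : E) (r δ : ℝ) : Set E :=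
  {w | w ∈ ball y₀ r ∧ ∃ t > (0 : ℝ), ∃ v ∈ ball e δ, w = c - t • v}

theorem cn_open (c e y₀ : E) (r δ : ℝ) : IsOpen (Cn c e y₀ r δ) := by
  have : Cn c e y₀ r δ = ball y₀ r ∩ ⋃ t > (0 : ℝ), (fun w => t⁻¹ • (c - w)) ⁻¹' ball e δ := by
    ext w
    simp only [Cn, mem_ofPred_eq, mem_inter_iff, mem_iUnion, mem_preimage, exists_prop]
    refine and_congr_right fun _ => exists_congr fun t => and_congr_right fun ht =>
      ⟨fun ⟨v, hv, h⟩ => by simpa [h, ht.ne'] using hv, fun h => ⟨_, h, by simp [ht.ne']⟩⟩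
  rw [this]
  exact isOpen_ball.inter (isOpen_biUnion fun t _ => isOpen_ball.preimage (by fun_prop))

theorem cn_star (hc : c ∈ ball y₀ r) {w : E} (hw : w ∈ Cn c e y₀ r δ) {s : ℝ}
    (hs : s ∈ Ioc (0 : ℝ) 1) : c + s • (w - c) ∈ Cn c e y₀ r δ := by
  obtain ⟨h1, t, ht, v, hv, rfl⟩ := hw
  exact ⟨(convex_ball y₀ r).add_smul_sub_mem hc h1 ⟨hs.1.le, hs.2⟩, s * t, mul_pos hs.1 ht, v, hv,
    by module⟩

/-- the point from which the domain is seen -/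
theorem Nr.top (h : Pg A Φ) (hO : IsOpen O) (hZ : Sol A Z O) (N : Nr A Φ Z O φ W y₀ z₀ e r δ)
    (h0 : (y₀, z₀) ∈ closure (Gr Z O)) : ∃ c ∈ ball y₀ r, c ∈ O ∧ Z c ∈ ball z₀ r ∧
      Φ (c, Z c, y₀) = z₀ ∧ y₀ ∈ Cn c e y₀ r δ ∧
      ∀ᶠ q in 𝓝 (y₀, z₀), q ∈ Gr Z O → Vis O c q.1 := by
  have t1 : Tendsto (fun τ : ℝ => y₀ + τ • e) (𝓝[>] 0) (𝓝 y₀) := by
    have := (hd_ray y₀ e 0).continuousAt.tendsto
    rw [zero_smul, add_zero] at this
    exact this.mono_left nhdsWithin_le_nhds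
  have t2 : Tendsto (fun τ : ℝ => Φ (y₀, z₀, y₀ + τ • e)) (𝓝[>] 0) (𝓝 z₀) := by
    have := ((h.sm3 y₀ z₀).continuous.tendsto y₀).comp t1
    rwa [h.self] at this
  obtain ⟨τ, ⟨m1, m2⟩, τ0⟩ := (((t1.eventually (ball_mem_nhds _ N.r0)).and
    (t2.eventually (ball_mem_nhds _ N.r0))).and self_mem_nhdsWithin).exists
  replace τ0 : 0 < τ := τ0
  have c1 : Tendsto (fun q : E × V => τ⁻¹ • (y₀ + τ • e - q.1)) (𝓝 (y₀, z₀)) (𝓝 e) :=
    Continuous.tendsto' (by fun_prop) _ _ (by simp [τ0.ne'])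
  have v1 : ∀ᶠ q in 𝓝 (y₀, z₀), q ∈ Gr Z O → Vis O q.1 (y₀ + τ • e) := by
    filter_upwards [c1.eventually (ball_mem_nhds _ N.δ0),
      prod_mem_nhds (ball_mem_nhds y₀ N.r0) (ball_mem_nhds z₀ N.r0)] with q h1 h2 hq s hs
    have e1 : q.1 + τ • τ⁻¹ • (y₀ + τ • e - q.1) = y₀ + τ • e := by simp [τ0.ne']
    have hz : Z q.1 ∈ ball z₀ r := hq.2 ▸ h2.2
    have := N.stay h hO hZ h2.1 hq.1 hz (e1.symm ▸ m1) (fun t ht s => N.mono h h2.1 hz h1 (a := 0)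
      (by simpa using h2.1) (ray_mem (convex_ball y₀ r) (a := 0) (by simpa using h2.1)
        (e1.symm ▸ m1) ht) ht.1 s (by
          have := N.mem _ h2.1 _ hz _ h2.1
          rw [h.self] at this
          simpa [h.self] using N.pos _ this ⟨hq.1, rfl⟩ s)) (s * τ)
      ⟨mul_nonneg hs.1 τ0.le, mul_le_of_le_one_left τ0.le hs.2⟩
    rwa [smul_smul, mul_assoc, mul_inv_cancel₀ τ0.ne', mul_one] at this
  have f1 := (mem_closure_iff_frequently.1 h0).and_eventually v1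
  have e2 : Z (y₀ + τ • e) = Φ (y₀, z₀, y₀ + τ • e) :=
    (isClosed_eq continuous_const (h.sm.continuous.comp
      (by fun_prop : Continuous fun q : E × V => (q.1, q.2, y₀ + τ • e)))).mem_of_frequently_of_tendsto
      (f1.mono fun q hq => (h.vis hZ (hq.2 hq.1)).trans (by rw [← hq.1.2]; rfl)) tendsto_id
  have e3 : Φ (y₀ + τ • e, Z (y₀ + τ • e), y₀) = z₀ :=
    (isClosed_eq (h.sm.continuous.comp (by fun_prop : Continuous fun q : E × V =>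
      (y₀ + τ • e, Z (y₀ + τ • e), q.1))) continuous_snd).mem_of_frequently_of_tendsto
      (f1.mono fun q hq => (h.vis hZ (hq.2 hq.1).symm).symm.trans hq.1.2.symm) tendsto_id
  obtain ⟨q, hq⟩ := f1.exists
  exact ⟨_, m1, (hq.2 hq.1).mem, e2 ▸ m2, e3,
    ⟨mem_ball_self N.r0, τ, τ0, e, mem_ball_self N.δ0, by simp⟩,
    v1.mono fun q h1 h2 => (h1 h2).symm⟩

/-- positivity propagates upwards in the cone -/
theorem Nr.up (h : Pg A Φ) (N : Nr A Φ Z O φ W y₀ z₀ e r δ) (hc : c ∈ ball y₀ r)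
    (hz : z ∈ ball z₀ r) {w : E} (hw : w ∈ Cn c e y₀ r δ) (s : ι) (h0 : 0 < φ s (w, Φ (c, z, w)))
    {l : ℝ} (hl : l ∈ Icc (0 : ℝ) 1) : 0 < φ s (c + l • (w - c), Φ (c, z, c + l • (w - c))) := by
  have m := (convex_ball y₀ r).add_smul_sub_mem hc hw.1 hl
  obtain ⟨h1, t, ht, v, hv, rfl⟩ := hw
  have e1 : c - t • v = c + (-t) • v := by module
  have e2 : c + l • (c - t • v - c) = c + (-(l * t)) • v := by module
  rw [e2] at m ⊢
  rw [e1] at h0 h1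
  exact N.mono h hc hz hv h1 m (by nlinarith [hl.2]) s h0

/-- the visible part of the cone -/
theorem Nr.vis (h : Pg A Φ) (hO : IsOpen O) (hZ : Sol A Z O) (N : Nr A Φ Z O φ W y₀ z₀ e r δ)
    (hc : c ∈ ball y₀ r) (hcO : c ∈ O) (hz : Z c ∈ ball z₀ r) {w : E} (hw : w ∈ Cn c e y₀ r δ) :
    Vis O c w ↔ ∀ s, 0 < φ s (w, Φ (c, Z c, w)) :=
  ⟨fun hv => N.pos _ (N.mem c hc _ hz _ hw.1) ⟨hv.mem, (h.vis hZ hv).symm⟩,
    fun hp => N.stay h hO hZ hc hcO hz (by simpa using hw.1) fun _ ht s =>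
      N.up h hc hz hw s (hp s) ht⟩

/-- the derivative towards `c` is positive -/
theorem Nr.der (N : Nr A Φ Z O φ W y₀ z₀ e r δ) (h : Pg A Φ) (hc : c ∈ ball y₀ r)
    (hz : z ∈ ball z₀ r) {w : E} (hw : w ∈ Cn c e y₀ r δ) (s : ι) (h0 : φ s (w, Φ (c, z, w)) ≤ 0) :
    0 < fderiv ℝ (fun y => φ s (y, Φ (c, z, y))) w (c - w) := by
  have m := N.mem c hc z hz w hw.1
  obtain ⟨-, t, ht, v, hv, rfl⟩ := hw
  have h1 := ((N.alt s).resolve_left fun h1 => (h1 _ m).not_ge h0) _ m v hv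
  have e1 : c - t • v = c + (-t) • v := by module
  have d := N.df _ m s
  have d1 : DifferentiableAt ℝ (fun y => φ s (y, Φ (c, z, y))) (c - t • v) :=
    DifferentiableAt.comp (f := fun y => (y, Φ (c, z, y))) _ d
      (differentiableAt_id.prodMk ((h.sm3 c z).differentiable (by simp) _))
  rw [e1] at d d1 h1 ⊢
  have d2 := HasFDerivAt.comp_hasDerivAt (f := fun s : ℝ => c + s • v) (-t) d1.hasFDerivAt
    (hd_ray c v (-t))
  have := (h.hd d).unique d2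
  rw [show c - (c + (-t) • v) = t • v by module, map_smul, ← this]
  exact mul_pos ht h1

end Vale.Agent.P366HB
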