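import Vale.Agent.P366HB.Defs
import Vale.Agent.P366HB.Alg
import Vale.Agent.P366HB.Str
import Vale.Agent.P366XR.Cov

/-!
# P366HB: functions of the state, and the frame in a chart
-/

open Filter Topology Set Matrix Metric
open scoped ContDiff
open Vale.Agent.P366.Stmt Vale.Agent.P366Z
open Vale.Agent.P366RB (lo)

noncomputable section

namespace Vale.Agent.P366HB

variable {n : ℕ} {g K a : Field n} {N u : E n → ℝ} {X p : Fin n → E n → ℝ} {O : Set (E n)}
  {y v : E n} {q : E n × Vn n} {A : E n → E n →L[ℝ] Vn n →L[ℝ] Vn n} {Z : E n → Vn n}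

/-- the components of the state -/
def sN (q : E n × Vn n) : ℝ := q.2.1
def sX (q : E n × Vn n) : Fin n → ℝ := q.2.2.1
def sp (q : E n × Vn n) : Fin n → ℝ := q.2.2.2.1
def sa (q : E n × Vn n) : Matrix (Fin n) (Fin n) ℝ := q.2.2.2.2
/-- functions of the state -/
def lam (g : Field n) (q : E n × Vn n) : ℝ := sN q ^ 2 - sX q ⬝ᵥ mat g q.1 *ᵥ sX q
def ww (q : E n × Vn n) : Fin n → ℝ := sN q • sp q - sa q *ᵥ sX q
def pX (q : E n × Vn n) : ℝ := sp q ⬝ᵥ sX q
def pq (g : Field n) (q : E n × Vn n) : ℝ := sp q ⬝ᵥ (mat g q.1)⁻¹ *ᵥ sp q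
def w0 (g : Field n) (q : E n × Vn n) : ℝ := pq g q -
  (∑ i, ∑ j, ∑ k, ∑ l, (mat g q.1)⁻¹ i k * (mat g q.1)⁻¹ j l * sa q i j * sa q k l) / 2
def YY (g : Field n) (q : E n × Vn n) : Fin n → ℝ :=
  lam g q • sp q - sN q • ww q + pX q • mat g q.1 *ᵥ sX q

theorem cd_sN : ContDiff ℝ ∞ (sN (n := n)) := by unfold sN; fun_prop
theorem cd_sX : ContDiff ℝ ∞ (sX (n := n)) := by unfold sX; fun_prop
theorem cd_sp : ContDiff ℝ ∞ (sp (n := n)) := by unfold sp; fun_prop
theorem cd_sa (i j : Fin n) : ContDiff ℝ ∞ fun q => sa q i j := by unfold sa; fun_prop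

theorem cd_dot {f h : E n × Vn n → Fin n → ℝ} (hf : ContDiff ℝ ∞ f) (hh : ContDiff ℝ ∞ h) :
    ContDiff ℝ ∞ fun q => f q ⬝ᵥ h q :=
  ContDiff.sum fun i _ => (contDiff_pi.1 hf i).mul (contDiff_pi.1 hh i)

theorem cd_mv {B : E n × Vn n → Matrix (Fin n) (Fin n) ℝ} {h : E n × Vn n → Fin n → ℝ}
    (hB : ∀ i j, ContDiff ℝ ∞ fun q => B q i j) (hh : ContDiff ℝ ∞ h) :
    ContDiff ℝ ∞ fun q => B q *ᵥ h q :=
  contDiff_pi.2 fun i => cd_dot (f := fun q => B q i) (contDiff_pi.2 (hB i)) hh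

theorem cd_g (hg : Met g) (i j : Fin n) : ContDiff ℝ ∞ fun q : E n × Vn n => mat g q.1 i j :=
  ContDiff.comp (hg.sm i j) contDiff_fst
theorem cd_up (hg : Met g) (i j : Fin n) : ContDiff ℝ ∞ fun q : E n × Vn n => (mat g q.1)⁻¹ i j :=
  ContDiff.comp (hg.sm_up i j) contDiff_fst
theorem cd_lam (hg : Met g) : ContDiff ℝ ∞ (lam g) :=
  (cd_sN.pow 2).sub (cd_dot cd_sX (cd_mv (cd_g hg) cd_sX))
theorem cd_ww : ContDiff ℝ ∞ (ww (n := n)) := (cd_sN.smul cd_sp).sub (cd_mv cd_sa cd_sX)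
theorem cd_pX : ContDiff ℝ ∞ (pX (n := n)) := cd_dot cd_sp cd_sX
theorem cd_pq (hg : Met g) : ContDiff ℝ ∞ (pq g) := cd_dot cd_sp (cd_mv (cd_up hg) cd_sp)
theorem cd_w0 (hg : Met g) : ContDiff ℝ ∞ (w0 g) := (cd_pq hg).sub (ContDiff.div_const
  (ContDiff.sum fun i _ => ContDiff.sum fun j _ => ContDiff.sum fun k _ => ContDiff.sum fun l _ =>
    (((cd_up hg i k).mul (cd_up hg j l)).mul (cd_sa i j)).mul (cd_sa k l)) 2)
theorem cd_YY (hg : Met g) : ContDiff ℝ ∞ (YY g) := (((cd_lam hg).smul cd_sp).sub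
  (cd_sN.smul cd_ww)).add (cd_pX.smul (cd_mv (cd_g hg) cd_sX))

theorem sq_dot (g : Field n) (X : Fin n → E n → ℝ) (y : E n) :
    P366RB.sq g X y = (fun i => X i y) ⬝ᵥ mat g y *ᵥ fun i => X i y := by
  simp only [P366RB.sq, dotProduct, mulVec, Finset.mul_sum]
  exact Finset.sum_congr rfl fun i _ => Finset.sum_congr rfl fun j _ => by unfold mat; ring

/-- the derivatives of `N` and `λ` along a solution -/
theorem Lin.der (h : Lin g K A) (hg : Met g) (hZ : HasFDerivAt Z ((A y).flip (Z y)) y) :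
    (fun i => pd i (fun y => sN (y, Z y)) y) = sp (y, Z y) - mat K y *ᵥ sX (y, Z y) ∧
      (fun i => pd i (fun y => lam g (y, Z y)) y) = (2 : ℝ) • ww (y, Z y) := by
  have d1 : HasFDerivAt (fun y => sN (y, Z y)) _ y := hZ.fst
  have d2 : ∀ k, HasFDerivAt (fun y => sX (y, Z y) k) _ y := hasFDerivAt_pi'.1 hZ.snd.fst
  have e1 : ∀ i, pd i (fun y => sN (y, Z y)) y = (sp (y, Z y) - mat K y *ᵥ sX (y, Z y)) i :=
    fun i => (pd_of_hasFDerivAt d1 i).trans ((h.dN y _ (Z y)).trans (by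
      simp; rfl))
  have e2 : ∀ k, (fun i => P366XR.Dm g (fun i y => sX (y, Z y) i) y i k) =
      (mat g y)⁻¹ *ᵥ (sa (y, Z y) k - sN (y, Z y) • mat K y k) := fun k => funext fun i => by
    have := (pd_of_hasFDerivAt (d2 i) k).trans (h.dX y _ (Z y) i)
    simp only [PiLp.single_apply, ite_mul, one_mul, zero_mul, Finset.sum_ite_eq',
      Finset.mem_univ, if_true] at this
    exact (congrArg (· + _) this).trans (sub_add_cancel _ _)
  refine ⟨funext e1, funext fun i => ?_⟩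
  have d3 : P366XR.Df (fun i y => sX (y, Z y) i) y := fun k => (d2 k).differentiableAt
  have e3 := P366XR.pd_bl g hg.sm d3 d3 i
  rw [P366XR.cM_g hg, e2, dot_sy (hg.pos y) ((mat g y)⁻¹ *ᵥ _), mul_inv_vec (hg.pos y)] at e3
  refine (pd_sub (d1.differentiableAt.fun_pow 2) (P366XR.df_bl hg.sm d3 d3) i).trans ?_
  rw [pd_pow d1.differentiableAt, e1, e3]
  simp only [zero_mulVec, ww, Pi.smul_apply,
    Pi.sub_apply, smul_eq_mul, show P366XR.ev (fun i y => sX (y, Z y) i) y = sX (y, Z y) from rfl,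
    dotProduct_comm (sX (y, Z y)), show ∀ B : Matrix (Fin n) (Fin n) ℝ,
      (B *ᵥ sX (y, Z y)) i = B i ⬝ᵥ sX (y, Z y) from fun _ => rfl]
  norm_num
  ring

theorem dA_eq {f : E n × Vn n → ℝ} (hf : DifferentiableAt ℝ f (y, Z y))
    (hZ : HasFDerivAt Z ((A y).flip (Z y)) y) (v : E n) :
    dA A f (y, Z y) v = (fun i => pd i (fun y => f (y, Z y)) y) ⬝ᵥ fun i => v i := by
  have d := HasFDerivAt.comp (f := fun y => (y, Z y)) y hf.hasFDerivAt
    ((hasFDerivAt_id y).prodMk hZ)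
  rw [dotProduct_comm]
  exact (congrArg (· v) d.fderiv).symm.trans (fderiv_eq_sum d.differentiableAt v)

/-- the frame: the chart image `O` of the region -/
structure Fr (g K a : Field n) (N : E n → ℝ) (X p : Fin n → E n → ℝ) (O : Set (E n)) : Prop where
  met : Met g
  op : IsOpen O
  kd : ∀ y ∈ O, Kd g K a N X p y
  cN : ContinuousOn N (closure O)
  cX : ∀ i, ContinuousOn (X i) (closure O)
  fr : ∀ y ∈ closure O, y ∉ O → lam g (y, ZZ a N X p y) = 0
  alt : ∀ y ∈ closure O, y ∉ O →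
    (∀ v : E n, P366RB.sq g (fun i z => v i + X i z) y < N y ^ 2 →
      ¬∀ᶠ t : ℝ in 𝓝[>] 0, y + t • v ∈ O) ∨
    HasFDerivAt (fun z => lam g (z, ZZ a N X p z)) (0 : E n →L[ℝ] ℝ) y
  bd : ∀ C, IsCompact C → ∃ B, ∀ y ∈ C, y ∈ O → ‖ZZ a N X p y‖ ≤ B

theorem Fr.sol (F : Fr g K a N X p O) (h : Lin g K A) : Sol A (ZZ a N X p) O := fun y hy =>
  h.sol a N X p y (mem_of_superset (F.op.mem_nhds hy) F.kd)

theorem Fr.pos (F : Fr g K a N X p O) (hy : y ∈ O) : 0 < lam g (y, ZZ a N X p y) :=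
  sub_pos.2 ((sq_dot g X y).symm.trans_lt (F.kd y hy).l0)

theorem cl_of {S : Set (E n × Vn n)} (hq : q ∈ closure (Gr Z O)) (hS : IsClosed S)
    (h : ∀ y ∈ O, (y, Z y) ∈ S) : q ∈ S :=
  closure_minimal (fun q hq => by rw [show q = (q.1, Z q.1) from Prod.ext rfl hq.2]; exact h _ hq.1)
    hS hq

/-- the limits of the state -/
theorem Fr.cl (F : Fr g K a N X p O) (hq : q ∈ closure (Gr (ZZ a N X p) O)) :
    q.1 ∈ closure O ∧ sN q = N q.1 ∧ (sX q = fun i => X i q.1) ∧ 0 ≤ sN q ∧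
      (∀ i j, sa q i j = -sa q j i) ∧ (q.1 ∉ O → lam g q = 0) := by
  have h1 : q.1 ∈ closure O := cl_of hq (isClosed_closure.preimage continuous_fst)
    fun y hy => subset_closure hy
  have h2 : ∀ (f : E n → ℝ) (s : E n × Vn n → ℝ), ContinuousOn f (closure O) → Continuous s →
      (∀ y, s (y, ZZ a N X p y) = f y) → s q = f q.1 := fun f s hf hs e =>
    (cl_of (S := Prod.fst ⁻¹' closure O ∩ (fun q => s q - f q.1) ⁻¹' {0}) hq
      ((hs.continuousOn.sub (hf.comp continuousOn_fst fun _ h => h)).preimage_isClosed_of_isClosed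
        (isClosed_closure.preimage continuous_fst) isClosed_singleton)
      fun y hy => ⟨subset_closure hy, sub_eq_zero.2 (e y)⟩).2 |> sub_eq_zero.1
  have h3 := h2 N sN F.cN cd_sN.continuous fun _ => rfl
  have h4 : sX q = fun i => X i q.1 := funext fun i =>
    h2 (X i) (fun q => sX q i) (F.cX i) (contDiff_pi.1 cd_sX i).continuous fun _ => rfl
  refine ⟨h1, h3, h4, cl_of hq (isClosed_le continuous_const cd_sN.continuous)
    fun y hy => (F.kd y hy).N0.le, fun i j => cl_of hq (isClosed_eq (cd_sa i j).continuous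
      (cd_sa j i).continuous.neg) fun y hy => (F.kd y hy).sk i j, fun h => ?_⟩
  rw [lam, h3, h4]
  exact F.fr _ h1 h

theorem ww_dot (h : ∀ i j, sa q i j = -sa q j i) : ww q ⬝ᵥ sX q = sN q * pX q := by
  rw [ww, sub_dotProduct, smul_dotProduct, dotProduct_comm (sa q *ᵥ _), skew_dot h, sub_zero]
  rfl

theorem nrm_eq (g : Field n) (u : E n → ℝ) (y : E n) (c : ℝ) : (fun i => c * nrm g u i y) =
    (c / √((fun i => pd i u y) ⬝ᵥ (mat g y)⁻¹ *ᵥ fun i => pd i u y)) •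
      (mat g y)⁻¹ *ᵥ fun i => pd i u y := by
  have e : covNorm g (fun j => pd j u) y =
      √((fun i => pd i u y) ⬝ᵥ (mat g y)⁻¹ *ᵥ fun i => pd i u y) := by
    simp only [covNorm, dotProduct, mulVec, Finset.mul_sum]
    congr 1
    exact Finset.sum_congr rfl fun i _ => Finset.sum_congr rfl fun j _ => by unfold up; ring
  funext i
  rw [nrm, e, Pi.smul_apply, smul_eq_mul, div_mul_eq_mul_div, mul_div_assoc]
  rfl

/-- a point of the frontier which is touched from inside -/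
theorem Fr.touch (F : Fr g K a N X p O) (h : Lin g K A) (hZ : HasFDerivAt Z ((A y).flip (Z y)) y)
    (hu : DifferentiableAt ℝ u y) (h0 : 0 ≤ u y) (hd : ∃ i, pd i u y ≠ 0) (hy : y ∉ O)
    (hs : ∀ᶠ z in 𝓝 y, 0 < u z → z ∈ O ∧ Z z = ZZ a N X p z) :
    (y, Z y) ∈ closure (Gr (ZZ a N X p) O) ∧
      (∃ β ≥ (0 : ℝ), ww (y, Z y) = β • fun i => pd i u y) ∧
      (sN (y, Z y) = 0 → ∃ β ≥ (0 : ℝ), sp (y, Z y) = β • fun i => pd i u y) ∧
      ((sX (y, Z y) = fun i => sN (y, Z y) * nrm g u i y) ∨ ww (y, Z y) = 0) := by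
  have c : ContinuousAt (fun y => (y, Z y)) y := continuousAt_id.prodMk hZ.continuousAt
  have h1 : (y, Z y) ∈ closure (Gr (ZZ a N X p) O) := mem_closure_of_frequently_of_tendsto
    (((side_freq hu h0 hd).and_eventually hs).mono fun z hz => hz.2 hz.1) c
  obtain ⟨m, eN, eX, N0, -, l0⟩ := F.cl h1
  obtain ⟨e1, e2⟩ := h.der F.met hZ
  have df : ∀ f : E n × Vn n → ℝ, ContDiff ℝ ∞ f → DifferentiableAt ℝ (fun y => f (y, Z y)) y :=
    fun f hf => DifferentiableAt.comp (f := fun y => (y, Z y)) y (hf.differentiable (by simp) _)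
      (differentiableAt_id.prodMk hZ.differentiableAt)
  have X0 : sN (y, Z y) = 0 → sX (y, Z y) = 0 := fun k => q_zero (F.met.pos y) (by
    have := l0 hy
    rw [lam, k] at this
    linarith)
  obtain ⟨β, β0, hβ⟩ := side_prop hu h0 hd (df _ (cd_lam F.met)) (l0 hy).le
    (hs.mono fun z hz k => by rw [(hz k).2]; exact (F.pos (hz k).1).le)
  rw [e2] at hβ
  have e3 : ww (y, Z y) = (β / 2) • fun i => pd i u y := by
    rw [div_eq_inv_mul, ← smul_smul, ← hβ, smul_smul]; norm_num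
  refine ⟨h1, ⟨β / 2, by positivity, e3⟩, fun k => ?_, ?_⟩
  · obtain ⟨γ, γ0, hγ⟩ := side_prop hu h0 hd (df _ cd_sN) k.le
      (hs.mono fun z hz k => by rw [(hz k).2]; exact (F.kd z (hz k).1).N0.le)
    rw [e1, X0 k, mulVec_zero, sub_zero] at hγ
    exact ⟨γ, γ0, hγ⟩
  rcases N0.eq_or_lt with k | k
  · exact Or.inl (by rw [X0 k.symm, ← k]; funext i; simp)
  have hω : (fun i => pd i u y) ≠ 0 := fun k => hd.elim fun i hi => hi (congrFun k i)
  refine (F.alt y m hy).imp (fun k1 => ?_) fun k1 => ?_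
  · rw [nrm_eq]
    refine esc_alg (F.met.pos y) hω k (sub_eq_zero.1 (l0 hy)).ge
      fun v hv => le_of_not_gt fun k2 => k1 (WithLp.toLp 2 v) ?_ ?_
    · rw [sq_dot, ← show sN (y, Z y) = N y from eN]
      rwa [eX] at hv
    · exact ((side (v := WithLp.toLp 2 v) hu h0 k2).and ((tend_line y _).eventually hs)).mono
        fun t ht => (ht.2 ht.1).1
  · obtain ⟨γ, γ0, hγ⟩ := side_prop hu h0 hd
      (k1.differentiableAt.fun_sub (df _ (cd_lam F.met))) (by rw [l0 hy, F.fr y m hy, sub_self])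
      (hs.mono fun z hz k => by rw [(hz k).2, sub_self])
    have e4 : (fun i => pd i (fun z => lam g (z, ZZ a N X p z) - lam g (z, Z z)) y) =
        -(β • fun i => pd i u y) := funext fun i => by
      rw [pd_sub k1.differentiableAt (df _ (cd_lam F.met)), pd_of_hasFDerivAt k1, ← hβ, ← e2]
      simp
    rw [e4, neg_eq_iff_add_eq_zero, ← add_smul, smul_eq_zero_iff_left hω] at hγ
    rw [e3, show β = 0 by linarith, zero_div, zero_smul]

end Vale.Agent.P366HB
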