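import Vale.Agent.P366HB.Fr

/-!
# P366HB: the bound for the derivative of `λ` along `M X`, in a chart
-/

open Filter Topology Set Matrix Metric
open scoped ContDiff
open Vale.Agent.P366.Stmt Vale.Agent.P366Z

noncomputable section

namespace Vale.Agent.P366HB

variable {n : ℕ} {g K a : Field n} {N u : E n → ℝ} {X p : Fin n → E n → ℝ} {O : Set (E n)}
  {x y v : E n} {q : E n × Vn n} {A : E n → E n →L[ℝ] Vn n →L[ℝ] Vn n} {Z : E n → Vn n}
  {Φ : E n × Vn n × E n → Vn n}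

theorem Pg.lipf (h : Pg A Φ) {f : E n × Vn n → Fin n → ℝ} (hf : ContDiff ℝ ∞ f) (r C : ℝ) :
    ∃ L ≥ (0 : ℝ), ∀ c y z, ‖c‖ ≤ r → ‖y‖ ≤ r → ‖z‖ ≤ C →
      ‖f (y, Φ (c, z, y)) - f (c, z)‖ ≤ L * ‖y - c‖ := by
  have hK : IsCompact (closedBall (0 : E n) r ×ˢ closedBall (0 : Vn n) C ×ˢ
      closedBall (0 : E n) r) :=
    (isCompact_closedBall _ _).prod ((isCompact_closedBall _ _).prod (isCompact_closedBall _ _))
  have s : ContDiff ℝ ∞ fun q : E n × Vn n × E n => f (q.2.2, Φ q) :=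
    hf.comp (ContDiff.prodMk (by fun_prop) h.sm)
  obtain ⟨L, hL⟩ := hK.exists_bound_of_continuousOn (s.continuous_fderiv (by simp)).continuousOn
  refine ⟨max L 0, le_max_right _ _, fun c y z hc hy hz => ?_⟩
  have := ((convex_closedBall (0 : E n) r).prod ((convex_closedBall (0 : Vn n) C).prod
    (convex_closedBall (0 : E n) r))).norm_image_sub_le_of_norm_fderiv_le
    (fun q _ => s.differentiable (by simp) q) (fun q hq => (hL q hq).trans (le_max_left L 0))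
    (x := (c, z, c)) (y := (c, z, y)) (by simp [hc, hz]) (by simp [hc, hy, hz])
  simpa [h.self] using this

theorem bd_state {f : E n × Vn n → ℝ} (hf : Continuous f) (r C : ℝ) :
    ∃ L ≥ (0 : ℝ), ∀ c z, ‖c‖ ≤ r → ‖z‖ ≤ C → |f (c, z)| ≤ L := by
  obtain ⟨L, hL⟩ := ((isCompact_closedBall (0 : E n) r).prod
    (isCompact_closedBall (0 : Vn n) C)).exists_bound_of_continuousOn hf.continuousOn
  exact ⟨max L 0, le_max_right _ _, fun c z hc hz =>
    (hL (c, z) (by simp [hc, hz])).trans (le_max_left _ _)⟩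

theorem dot_le (η : Fin n → ℝ) (D : E n) : |η ⬝ᵥ fun i => D i| ≤ n * ‖η‖ * ‖D‖ := by
  refine (Finset.abs_sum_le_sum_abs _ _).trans ((Finset.sum_le_card_nsmul _ _ (‖η‖ * ‖D‖)
    fun i _ => ?_).trans_eq (by simp [mul_assoc]))
  rw [abs_mul]
  exact mul_le_mul (norm_le_pi_norm η i) (PiLp.norm_apply_le D i) (abs_nonneg _) (norm_nonneg _)

theorem x_zero (hg : Met g) (l0 : lam g q = 0) (h : sN q = 0) : sX q = 0 :=
  q_zero (hg.pos q.1) (by rw [lam, h] at l0; linarith)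

theorem yy_zero (hg : Met g) {η : Fin n → ℝ} {β : ℝ} (hη : η ≠ 0) (l0 : lam g q = 0)
    (sk : ∀ i j, sa q i j = -sa q j i) (hβ : ww q = β • η)
    (h : sX q = (sN q / √(η ⬝ᵥ (mat g q.1)⁻¹ *ᵥ η)) • (mat g q.1)⁻¹ *ᵥ η ∨ ww q = 0) :
    YY g q = 0 := by
  rcases eq_or_ne (sN q) 0 with k | k
  · simp [YY, l0, k, x_zero hg l0 k]
  have e := ww_dot sk
  rcases h with h | h
  · have h0 := q_pos (hg.pos q.1).inv hη
    have m0 := (Real.sqrt_pos.2 h0).ne'
    have m2 := Real.sq_sqrt h0.le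
    rw [hβ, h, smul_dotProduct, dotProduct_smul, ← m2, Real.sqrt_sq (Real.sqrt_nonneg _)] at e
    have e1 : pX q = β * √(η ⬝ᵥ (mat g q.1)⁻¹ *ᵥ η) := by
      simp only [smul_eq_mul] at e
      field_simp at e
      linarith
    rw [YY, l0, hβ, h, mulVec_smul, mul_inv_vec (hg.pos _), e1, smul_smul, smul_smul, zero_smul,
      zero_sub, neg_add_eq_zero]
    congr 1
    field_simp
  · rw [h, zero_dotProduct] at e
    simp [YY, l0, h, (mul_eq_zero.1 e.symm).resolve_left k]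

/-- the twist is small near the frontier -/
theorem Fr.near (F : Fr g K a N X p O) (h : Lin g K A) (P : Pg A Φ) (R : ℝ) :
    ∃ L ≥ (0 : ℝ), ∀ x ∈ O, ‖x‖ ≤ R → ∃ ρ ∈ Ioc (0 : ℝ) 1, ball x ρ ⊆ O ∧
      ‖YY g (x, ZZ a N X p x)‖ ≤ L * ρ := by
  obtain ⟨B, hB⟩ := F.bd _ (isCompact_closedBall 0 R)
  obtain ⟨L, L0, hL⟩ := P.lipf (cd_YY F.met) (R + 1) B
  obtain ⟨L', L0', hL'⟩ := bd_state (cd_YY F.met).continuous.norm R B
  refine ⟨L + L', by positivity, fun x hx hR => ?_⟩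
  have hZ := hB x (by simpa using hR) hx
  by_cases h1 : ball x 1 ⊆ O
  · exact ⟨1, by simp, h1, by linarith [le_abs_self ‖YY g (x, ZZ a N X p x)‖, hL' x _ hR hZ]⟩
  obtain ⟨y', m', hy'⟩ := not_subset.1 h1
  obtain ⟨y, hy, e⟩ := F.op.isClosed_compl.exists_infDist_eq_dist ⟨y', hy'⟩ x
  have h2 : ball x (dist x y) ⊆ O := e ▸ ball_infDist_compl_subset
  have h3 : dist x y ≤ 1 := e ▸ (infDist_le_dist_of_mem hy').trans (mem_ball'.1 m').le
  have h4 : x ≠ y := fun k => hy (k ▸ hx)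
  have h5 := dist_pos.2 h4
  have du : ∀ i, pd i (fun z => dist x y ^ 2 - ‖z - x‖ ^ 2) y = -(2 * (y - x) i) := fun i => by
    rw [pd_const_sub, pd_translate (f := fun z => ‖z‖ ^ 2), pd_normSq]
  have hd : ∃ i, pd i (fun z => dist x y ^ 2 - ‖z - x‖ ^ 2) y ≠ 0 := by
    by_contra k
    push Not at k
    exact h4 (sub_eq_zero.1 (PiLp.ext fun i => by simpa [du] using k i)).symm
  obtain ⟨k1, ⟨β, -, k2⟩, -, k3⟩ := F.touch h (P.sol F.op (F.sol h) x y
    (closure_mono (fun z hz => vis_ball h2 hz) (by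
      rw [closure_ball x h5.ne', mem_closedBall, dist_comm])))
    (u := fun z => dist x y ^ 2 - ‖z - x‖ ^ 2)
    ((differentiableAt_const _).sub ((differentiableAt_id.sub_const x).norm_sq ℝ))
    (by rw [dist_comm, dist_eq_norm, sub_self]) hd hy (Eventually.of_forall fun z hz => by
      have : z ∈ ball x (dist x y) :=
        mem_ball_iff_norm.2 (abs_lt_of_sq_lt_sq' (by linarith) h5.le).2
      exact ⟨h2 this, (P.vis (F.sol h) (vis_ball h2 this)).symm⟩)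
  obtain ⟨-, -, -, -, sk, l0⟩ := F.cl k1
  rw [nrm_eq] at k3
  have k4 := hL x y _ (by linarith)
    (by linarith [norm_le_norm_add_norm_sub' y x, dist_eq_norm y x, dist_comm x y]) hZ
  rw [yy_zero F.met (fun k => hd.elim fun i hi => hi (congrFun k i)) (l0 hy) sk k2 k3, zero_sub,
    norm_neg, ← dist_eq_norm, dist_comm] at k4
  exact ⟨_, ⟨h5, h3⟩, h2, k4.trans (by gcongr; linarith)⟩

/-- the line argument -/
theorem Fr.line (F : Fr g K a N X p O) (h : Lin g K A) (P : Pg A Φ) (R : ℝ) :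
    ∃ L ≥ (0 : ℝ), ∀ x ∈ O, ‖x‖ ≤ R → ∀ ρ ≤ 1, ball x ρ ⊆ O → ∀ v : E n, ‖v‖ < ρ →
      0 < lam g (x, ZZ a N X p x) + 2 * (ww (x, ZZ a N X p x) ⬝ᵥ fun i => v i) + L * ‖v‖ ^ 2 := by
  obtain ⟨B, hB⟩ := F.bd _ (isCompact_closedBall 0 R)
  obtain ⟨L, L0, hL⟩ := P.lipf cd_ww (R + 1) B
  refine ⟨2 * (n * L), by positivity, fun x hx hR ρ ρ1 hρ v hv => ?_⟩
  have m : ∀ t ∈ Icc (0 : ℝ) 1, ‖t • v‖ ≤ ‖v‖ := fun t ht => by
    rw [norm_smul, Real.norm_of_nonneg ht.1]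
    exact mul_le_of_le_one_left (norm_nonneg _) ht.2
  have m1 : ∀ t ∈ Icc (0 : ℝ) 1, x + t • v ∈ ball x ρ := fun t ht =>
    add_mem_ball_iff_norm.2 ((m t ht).trans_lt hv)
  have d : ∀ t ∈ Icc (0 : ℝ) 1, HasDerivAt (fun t : ℝ => lam g (x + t • v, ZZ a N X p (x + t • v)))
      (2 * (ww (x + t • v, ZZ a N X p (x + t • v)) ⬝ᵥ fun i => v i)) t := fun t ht => by
    have s := F.sol h _ (hρ (m1 t ht))
    have d1 := ((cd_lam F.met).differentiable (by simp) _).hasFDerivAt.comp_hasDerivAt t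
      ((hd_ray x v t).prodMk (s.comp_hasDerivAt t (hd_ray x v t)))
    have e := dA_eq ((cd_lam F.met).differentiable (by simp) _) s v
    rw [(h.der F.met s).2, smul_dotProduct, smul_eq_mul] at e
    exact d1.congr_deriv e
  obtain ⟨t, ht, e⟩ := exists_hasDerivAt_eq_slope _ _ zero_lt_one
    (fun t ht => (d t ht).continuousAt.continuousWithinAt) fun t ht => d t (Ioo_subset_Icc_self ht)
  have ht' := Ioo_subset_Icc_self ht
  have k := hL x (x + t • v) _ (by linarith) (by linarith [norm_add_le x (t • v), m t ht'])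
    (hB x (by simpa using hR) hx)
  rw [← P.vis (F.sol h) (vis_ball hρ (m1 t ht')), add_sub_cancel_left] at k
  have k1 := (le_abs_self _).trans ((dot_le _ v).trans (mul_le_mul_of_nonneg_right
    (mul_le_mul_of_nonneg_left (k.trans (mul_le_mul_of_nonneg_left (m t ht') L0)) n.cast_nonneg)
    (norm_nonneg v)))
  have k2 := F.pos (hρ (m1 1 (by simp)))
  rw [sub_dotProduct] at k1
  simp only [zero_smul, add_zero, sub_zero, div_one] at e
  linarith

/-- **the bound in a chart** -/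
theorem Fr.hd (F : Fr g K a N X p O) (h : Lin g K A) (R : ℝ) : ∃ C, ∀ x ∈ O, ‖x‖ ≤ R →
    |YY g (x, ZZ a N X p x) ⬝ᵥ (mat g x)⁻¹ *ᵥ ww (x, ZZ a N X p x)| ≤
      C * lam g (x, ZZ a N X p x) := by
  obtain ⟨Φ, P⟩ := exists_pg h.sm
  obtain ⟨B, hB⟩ := F.bd _ (isCompact_closedBall 0 R)
  obtain ⟨L, L0, hL⟩ := F.near h P R
  obtain ⟨M, M0, hM⟩ := F.line h P R
  obtain ⟨Λ, Λ0, hΛ⟩ := bd_state (f := fun q => ∑ i, (mat g q.1)⁻¹ i i)
    (continuous_finsetSum _ fun i _ => (cd_up F.met i i).continuous) R B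
  obtain ⟨S, S0, hS⟩ := bd_state (cd_dot cd_sp (cd_mv (cd_up F.met) cd_ww)).continuous R B
  obtain ⟨T, T0, hT⟩ := bd_state cd_sN.continuous R B
  refine ⟨n * L * (2 * Λ) + (S + T * (M * Λ + 1)), fun x hx hR => ?_⟩
  have hZ := hB x (by simpa using hR) hx
  obtain ⟨ρ, hρ, k1, k2⟩ := hL x hx hR
  have k3 := hM x hx hR ρ hρ.2 k1
  have l0 := F.pos hx
  have N0 : 0 < sN (x, ZZ a N X p x) := (F.kd x hx).N0
  have e1 := ww_dot (q := (x, ZZ a N X p x)) (F.kd x hx).sk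
  have k4 := hS x _ hR hZ
  have k5 := (le_abs_self _).trans (hT x _ hR hZ)
  have k6 := (le_abs_self _).trans (hΛ x _ hR hZ)
  have hG := F.met.pos x
  generalize ZZ a N X p x = z at *
  obtain ⟨D, hD⟩ : ∃ D : E n, (mat g x)⁻¹ *ᵥ ww (x, z) = fun i => D i := ⟨WithLp.toLp 2 _, rfl⟩
  obtain ⟨δ, hδ⟩ : ∃ δ, ww (x, z) ⬝ᵥ (mat g x)⁻¹ *ᵥ ww (x, z) = δ := ⟨_, rfl⟩
  have δ0 : 0 ≤ δ := hδ ▸ q_nn hG.inv _
  have k7 : ‖D‖ ^ 2 ≤ Λ * δ := by
    rw [norm_sq_eq]
    refine (Finset.sum_le_sum fun i _ => ?_).trans (((Finset.sum_mul _ _ _).symm.le).trans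
      (mul_le_mul_of_nonneg_right k6 δ0))
    have := cs_alg hG (Pi.single i 1) ((mat g x)⁻¹ *ᵥ ww (x, z))
    rw [mul_inv_vec hG, dotProduct_comm _ (ww _), hδ, hD] at this
    simpa using this
  have k8 : ∀ t, 0 ≤ t → t * (M * Λ + 1) ≤ 1 → t * ‖D‖ < ρ → t * δ ≤ lam g (x, z) := by
    intro t t0 t1 t2
    have := k3 (-t • D) (by rwa [norm_smul, norm_neg, Real.norm_of_nonneg t0])
    rw [show (fun i => (-t • D) i) = -t • fun i => D i from rfl, dotProduct_smul, ← hD, hδ,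
      norm_smul, norm_neg, Real.norm_of_nonneg t0, mul_pow, smul_eq_mul] at this
    have k9 : M * (t ^ 2 * ‖D‖ ^ 2) ≤ M * (t ^ 2 * (Λ * δ)) := by gcongr
    have k10 : t * δ * (t * (M * Λ + 1)) ≤ t * δ * 1 := by gcongr
    nlinarith [mul_nonneg (mul_nonneg t0 t0) δ0]
  by_cases c : ‖D‖ < ρ * (M * Λ + 1)
  · have k9 := k8 (M * Λ + 1)⁻¹ (by positivity) (inv_mul_cancel₀ (by positivity)).le
      ((inv_mul_lt_iff₀ (by positivity)).2 (by linarith))
    rw [inv_mul_le_iff₀ (by positivity)] at k9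
    have k10 := cs_alg hG (ww (x, z)) (sX (x, z))
    have k11 : sX (x, z) ⬝ᵥ mat g x *ᵥ sX (x, z) ≤ sN (x, z) ^ 2 := (sub_pos.1 l0).le
    rw [e1, hδ, mul_pow] at k10
    have k12 : pX (x, z) ^ 2 ≤ δ := le_of_mul_le_mul_left (a := sN (x, z) ^ 2)
      (by nlinarith) (by positivity)
    rw [YY, add_dotProduct, sub_dotProduct, smul_dotProduct, smul_dotProduct, smul_dotProduct, hδ,
      dotProduct_comm (_ *ᵥ sX _), dot_sy hG, mul_inv_vec hG, dotProduct_comm (sX _), e1]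
    simp only [smul_eq_mul]
    have k13 := mul_le_mul_of_nonneg_left k4 l0.le
    rw [← abs_of_pos l0, ← abs_mul, abs_of_pos l0, abs_le] at k13
    have k14 : sN (x, z) * δ ≤ T * ((M * Λ + 1) * lam g (x, z)) := by gcongr
    have k15 : 0 ≤ n * L * (2 * Λ) * lam g (x, z) := by positivity
    have k16 := mul_le_mul_of_nonneg_left k12 N0.le
    have k17 : 0 ≤ sN (x, z) * pX (x, z) ^ 2 := by positivity
    rw [abs_le]
    constructor <;> nlinarith
  · have D0 : 0 < ‖D‖ := (mul_pos hρ.1 (by positivity)).trans_le (not_lt.1 c)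
    have k9 := k8 (ρ / (2 * ‖D‖)) (by linarith [div_pos hρ.1 (mul_pos two_pos D0)]) (by
      rw [div_mul_eq_mul_div, div_le_one (by positivity)]; linarith) (by
      rw [div_mul_eq_mul_div, div_lt_iff₀ (by positivity)]; nlinarith [hρ.1])
    rw [div_mul_eq_mul_div, div_le_iff₀ (by positivity)] at k9
    have k10 : ρ * ‖D‖ ≤ 2 * Λ * lam g (x, z) := le_of_mul_le_mul_right (a := ‖D‖)
      (by nlinarith [mul_le_mul_of_nonneg_left k7 hρ.1.le, mul_le_mul_of_nonneg_left k9 Λ0]) D0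
    rw [hD]
    refine (dot_le _ D).trans ((mul_le_mul_of_nonneg_right
      (mul_le_mul_of_nonneg_left k2 n.cast_nonneg) D0.le).trans ?_)
    have k11 := mul_le_mul_of_nonneg_left k10 (show 0 ≤ n * L by positivity)
    have k12 : 0 ≤ (S + T * (M * Λ + 1)) * lam g (x, z) := by positivity
    nlinarith

end Vale.Agent.P366HB
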