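import Vale.Agent.P366HB.Ext
import Vale.Agent.P366HB.Gl

/-!
# P366HB: the block LIM
-/

open Filter Topology Set Metric Matrix
open scoped ContDiff
open Vale.Agent.P366M Vale.Agent.P366F
open Vale.Agent.P366.Stmt (E)

noncomputable section

namespace Vale.Agent.P366HB

variable {n : ℕ} {M : Type} [Mfe n M] {Z : Dat n M} {W : Set M} {x : M} {e : Ch n M} {y : E n}
  {z : Vn n} {Y : E n → Vn n} {u : E n → ℝ} {c : E n} {S : Set (E n)}

theorem Fr.clu {g K a : P366.Stmt.Field n} {N : E n → ℝ} {X p : Fin n → E n → ℝ} {O : Set (E n)}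
    (F : Fr g K a N X p O) {l : Filter (E n)} [l.NeBot] (h1 : l ≤ 𝓝 y) (h2 : ∀ᶠ y in l, y ∈ O) :
    ∃ z, ∃ l' ≤ l, l'.NeBot ∧ Tendsto (fun y => (y, ZZ a N X p y)) l' (𝓝 (y, z)) ∧
      (y, z) ∈ closure (Gr (ZZ a N X p) O) := by
  obtain ⟨B, hB⟩ := F.bd _ (isCompact_closedBall y 1)
  have h3 := Ultrafilter.of_le l
  obtain ⟨z, -, hz⟩ := (isCompact_closedBall (0 : Vn n) B).ultrafilter_le_nhds
    ((Ultrafilter.of l).map (ZZ a N X p)) (le_principal_iff.2 (h3 (by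
      filter_upwards [h1 (closedBall_mem_nhds y one_pos), h2] with w w1 w2
      exact mem_closedBall_zero_iff.2 (hB w w1 w2))))
  have h4 : Tendsto (fun y => (y, ZZ a N X p y)) (Ultrafilter.of l) (𝓝 (y, z)) :=
    Tendsto.prodMk_nhds (h3.trans h1) hz
  exact ⟨z, _, h3, inferInstance, h4, mem_closure_of_tendsto h4 (h3 (h2.mono fun _ h => ⟨h, rfl⟩))⟩

theorem w0_st (hp : Pre Z W) (hs : Z.St W) (he : e ∈ At M) (hy : e.symm y ∈ W) :
    w0 (Z.g e) (y, St Z e y) = ip Z.quo Z.pot Z.pot (e.symm y) := by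
  have ev : ∀ᶠ z in 𝓝 y, P366RB.Kid (Z.g e) (Z.K e) (Z.a e) (Z.Nc e) (Z.Xc e) (Z.p e) z :=
    ((ev_iff he).1 (hp.cp.op.mem_nhds hy)).mono fun z hz => (hp.vac _ he z hz).kid (hs _ he z hz)
  have h := (P366RB.sta n _ _ _ _ _ _ _ (Z.D.met.rep he) (Z.D.smK _ he) (rep_sy Z.D.syK _)
    ev).2.2.2.2
  have d := (ev.self_of_nhds.cd_pot (Z.D.met.rep he)).differentiableAt (by simp)
  rw [← P366RB.loc_Vm he] at h d
  rw [← P366RB.rep_hm he, ip_rep he _ (dAt_of_loc he d) (dAt_of_loc he d)] at h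
  refine Eq.trans ?_ h.symm
  rw [w0, pq, ← quad_dot]
  rfl

theorem loc_ch (x : M) (u : E n → ℝ) : loc (ch x) (fun z => u (ch x z)) = u :=
  funext fun y => congrArg u (right_inv (ch_mem x) y)

theorem tc_of (hZ : Z.Ok) (hp : Pre Z W)
    (hq : (pt x, z) ∈ closure (Gr (St Z (ch x)) ((ch x).symm ⁻¹' W)))
    (h : Ex (Z.g (ch x)) (Z.a (ch x)) (Z.Nc (ch x)) (Z.Xc (ch x)) (Z.p (ch x))
      ((ch x).symm ⁻¹' W) S (pt x) z Y u c) :
    Z.Tc W x (fun w => u (ch x w)) (sp (pt x, z)) ∧ ∑ i, sp (pt x, z) i *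
      nrm Z.D.g (fun w => u (ch x w)) i x =
        sp (pt x, z) ⬝ᵥ fun i => P366.Stmt.nrm (Z.g (ch x)) u i (pt x) := by
  obtain ⟨k1, k2, k3, -⟩ := (frame hZ hp (ch_mem x)).cl hq
  have k4 := h.ev.self_of_nhds
  have k5 : ∀ i, nrm Z.D.g (fun w => u (ch x w)) i x = P366.Stmt.nrm (Z.g (ch x)) u i (pt x) :=
    fun i => by rw [← nrm_pt, loc_ch]
  have k6 : ∀ f : E n × Vn n → ℝ, Continuous f → Tendsto (fun y => f (y, St Z (ch x) y))
      (𝓝[{y | 0 < loc (ch x) (fun w => u (ch x w)) y}] pt x) (𝓝 (f (pt x, z))) := fun f hf => by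
    rw [loc_ch, ← h.z0]
    refine (((hf.comp (continuous_id.prodMk h.sm.continuous)).tendsto _).mono_left
      nhdsWithin_le_nhds).congr' ?_
    filter_upwards [self_mem_nhdsWithin, nhdsWithin_le_nhds h.ev] with y y1 y2
    exact congrArg (fun z => f (y, z)) (y2.2.1 y1).2.self_of_nhds
  refine ⟨⟨by simpa using hZ.cls hp.cp.sub (cl_sub (ch_mem x) k1), ?_, h.u0, ?_,
    ev_pt.2 (h.ev.mono fun y hy k => (hy.2.1 (by rwa [right_inv (ch_mem x)] at k)).1.mem.1),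
    fun i => ?_, fun i => k6 _ (contDiff_pi.1 cd_sp i).continuous,
    fun i j => ⟨_, k6 _ (cd_sa i j).continuous⟩⟩, by simp only [k5]; rfl⟩
  · rw [CAt, loc_ch]; exact k4.1
  · simpa only [pd, loc_ch] using h.du
  · have := congrFun (k4.2.2 h.u0).2.1 i
    rw [h.z0, k2, k3] at this
    simpa only [repV_pt, loc_pt, k5] using this

theorem pot_far (hZ : Z.Ok) : ∃ R, ∀ x : M, R < ‖px x‖ → 1 / 2 < Z.pot x := by
  have h := P366OC.lim hZ.qpos (P366RB.o_quo hZ.qpos hZ.og hZ.oN hZ.oX hZ.one).1.d0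
  obtain ⟨R, hR⟩ := P366OC.ev_iff.2 (h.eventually (lt_mem_nhds (half_lt_self one_pos)))
  refine ⟨max R (R0 M), fun x hx => ?_⟩
  have h1 := hR _ ((le_max_left _ _).trans_lt hx)
  have h2 : yp (px x) = x := yp_px (by linarith [(le_max_right _ _).trans_lt hx])
  simp only [P366RB.pot, P366RB.sq, fe, h2] at h1
  exact h1

theorem nebot_ch {P : Set M} (h : x ∈ closure P) : (𝓝[(ch x).symm ⁻¹' P] pt x).NeBot :=
  frequently_iff_neBot.1 ((ev_pt (x := x) (p := fun z => z ∉ P)).not.1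
    (mem_closure_iff_frequently.1 h))

/-- **LIM** -/
theorem lim : LIM := fun n M _ Z W hZ hp hs hP ε hε => by
  by_contra! k
  obtain ⟨R, hR⟩ := pot_far hZ
  have c1 : closure {x ∈ W | Z.κ ^ 2 + ε < Z.w0 x} ⊆ {x | 0 ≤ Z.D.F x} :=
    hZ.cls fun x hx => hp.cp.sub hx.1
  have k1 : ∀ d > (0 : ℝ), ∃ x ∈ closure {x ∈ W | Z.κ ^ 2 + ε < Z.w0 x} ∩ {x | ‖px x‖ ≤ R},
      Z.pot x ≤ d := fun d hd => by
    obtain ⟨x, x1, x2, x3⟩ := k (min d (1 / 2)) (by positivity)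
    exact ⟨x, ⟨subset_closure ⟨x1, x3⟩, le_of_not_gt fun h =>
      (hR x h).not_ge (x2.trans (min_le_right _ _))⟩, x2.trans (min_le_left _ _)⟩
  obtain ⟨x, x1, x2⟩ := ((Mfs.cpt R).inter_left isClosed_closure).exists_isMinOn (f := Z.pot)
    ((k1 1 one_pos).imp fun _ h => h.1) (hZ.clam.mono fun x hx => c1 hx.1).sqrt
  have x3 : x ∉ W := fun h => (hp.out.gt x h).not_ge (le_of_forall_pos_le_add fun d hd => by
    obtain ⟨y, y1, y2⟩ := k1 d hd
    linarith [show Z.pot x ≤ Z.pot y from x2 y1])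
  have he := ch_mem x
  have F := frame hZ hp he
  obtain ⟨A, hA⟩ := lin Z he
  have := nebot_ch x1.1
  obtain ⟨z, l, l1, l2, l3, l4⟩ := F.clu
    (l := 𝓝[(ch x).symm ⁻¹' {x ∈ W | Z.κ ^ 2 + ε < Z.w0 x}] pt x) nhdsWithin_le_nhds
    (mem_of_superset self_mem_nhdsWithin fun y hy => hy.1)
  have k2 : Z.κ ^ 2 + ε ≤ w0 (Z.g (ch x)) (pt x, z) :=
    ge_of_tendsto (((cd_w0 F.met).continuous.tendsto _).comp l3)
      (l1 (mem_of_superset self_mem_nhdsWithin fun y hy => hy.2.le.trans_eq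
        ((w0_st hp hs he hy.1).trans (hp.ip_eq hs hy.1)).symm))
  obtain ⟨Y, u, c, h⟩ := F.ext hA (hs _ he) l4 (by simpa using x3)
    (lt_of_lt_of_le (by positivity) k2) univ_mem
  obtain ⟨t1, t2⟩ := tc_of hZ hp l4 h
  have t3 := hP x _ _ t1
  rw [t2] at t3
  nlinarith [h.kap.1, h.kap.2]

end Vale.Agent.P366HB
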