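import Vale.Agent.P211.HK.LinOde

/-!
# P366HB: extension of the solutions of a linear system of finite type along rays
-/

set_option maxSynthPendingDepth 3

open Filter Topology Set Metric
open scoped ContDiff

noncomputable section

namespace Vale.Agent.P366HB

variable {E V : Type} [NormedAddCommGroup E] [NormedSpace ℝ E] [NormedAddCommGroup V]
  [NormedSpace ℝ V] {A : E → E →L[ℝ] V →L[ℝ] V} {Φ : E × V × E → V} {Z : E → V} {O : Set E}
  {c y v : E} {z : V}

/-- the propagator along rays -/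
structure Pg (A : E → E →L[ℝ] V →L[ℝ] V) (Φ : E × V × E → V) : Prop where
  cA : Continuous A
  sm : ContDiff ℝ ∞ Φ
  self : ∀ c z, Φ (c, z, c) = z
  der : ∀ c z v (t : ℝ), HasDerivAt (fun s : ℝ => Φ (c, z, c + s • v))
    (A (c + t • v) v (Φ (c, z, c + t • v))) t

theorem exists_pg [CompleteSpace V] (hA : ContDiff ℝ ∞ A) : ∃ Φ, Pg A Φ := by
  have h0 : ContDiff ℝ ∞ fun q : (E × E) × ℝ => A (q.1.1 + q.2 • q.1.2) q.1.2 :=
    (hA.comp (by fun_prop)).clm_apply (by fun_prop)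
  obtain ⟨U, Y, hU, -, hU0, hY0, dU, dY, -, hUY⟩ := P211.HK.exists_linFlow (W := V →L[ℝ] V) h0
  have e : ∀ c v (t : ℝ), U ((c, t • v), 1) = U ((c, v), t) := by
    intro c v t
    have h1 : ∀ s : ℝ, HasDerivAt (fun s : ℝ => Y ((c, t • v), s) * U ((c, v), s * t)) 0 s := by
      intro s
      have h2 := (dU (c, v) (s * t)).scomp s (hasDerivAt_mul_const t)
      refine ((dY (c, t • v) s).mul h2).congr_deriv ?_
      simp only [smul_smul, map_smul, Function.comp, smul_mul_assoc, mul_smul_comm, neg_mul,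
        mul_assoc, neg_add_cancel]
    have h2 := is_const_of_deriv_eq_zero (fun s => (h1 s).differentiableAt)
      (fun s => (h1 s).deriv) 1 0
    simp only [one_mul, zero_mul, hY0, hU0] at h2
    rw [← mul_one (U ((c, t • v), 1)), ← h2, ← mul_assoc, hUY, one_mul]
  refine ⟨fun q => U ((q.1, q.2.2 - q.1), 1) q.2.1, hA.continuous,
    (hU.comp (by fun_prop)).clm_apply (by fun_prop), fun c z => ?_, fun c z v t => ?_⟩
  · have := e c 0 0
    rw [smul_zero] at this
    simp only [sub_self, this, hU0, ContinuousLinearMap.one_apply]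
  · simp only [add_sub_cancel_left, e]
    simpa using (dU (c, v) t).clm_apply (hasDerivAt_const t z)

/-- `Z` solves the system on `O` -/
def Sol (A : E → E →L[ℝ] V →L[ℝ] V) (Z : E → V) (O : Set E) : Prop :=
  ∀ y ∈ O, HasFDerivAt Z ((A y).flip (Z y)) y

theorem hd_ray (c v : E) (t : ℝ) : HasDerivAt (fun s : ℝ => c + s • v) v t := by
  simpa using ((hasDerivAt_id t).smul_const v).const_add c

theorem Pg.ray (h : Pg A Φ) (hZ : Sol A Z O) {t : ℝ} (ht : 0 ≤ t)
    (hs : ∀ s ∈ Icc 0 t, c + s • v ∈ O) : Z (c + t • v) = Φ (c, Z c, c + t • v) := by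
  have d : ∀ s ∈ Icc 0 t, HasDerivAt (fun s : ℝ => Z (c + s • v) - Φ (c, Z c, c + s • v))
      (A (c + s • v) v (Z (c + s • v) - Φ (c, Z c, c + s • v))) s := fun s hs' => by
    rw [map_sub]
    exact ((hZ _ (hs s hs')).comp_hasDerivAt s (hd_ray c v s)).sub (h.der c (Z c) v s)
  have hL : Continuous fun s : ℝ => A (c + s • v) v :=
    (h.cA.comp (by fun_prop)).clm_apply continuous_const
  exact sub_eq_zero.1 (P211.HK.LinOde.eq_zero_fwd hL.continuousOn
    (fun s hs' => (d s hs').continuousAt.continuousWithinAt)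
    (fun s hs' => (d s ⟨hs'.1, hs'.2.le⟩).hasDerivWithinAt) (by simp [h.self]) t ⟨ht, le_rfl⟩)

/-- `y` is visible from `c` -/
def Vis (O : Set E) (c y : E) : Prop := ∀ s ∈ Icc (0 : ℝ) 1, c + s • (y - c) ∈ O

theorem Vis.mem (h : Vis O c y) : y ∈ O := by simpa using h 1 ⟨zero_le_one, le_rfl⟩

theorem Vis.symm (h : Vis O c y) : Vis O y c := fun s hs => by
  have := h (1 - s) ⟨by linarith [hs.2], by linarith [hs.1]⟩
  rwa [show c + (1 - s) • (y - c) = y + s • (c - y) by module] at this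

theorem Pg.vis (h : Pg A Φ) (hZ : Sol A Z O) (hv : Vis O c y) : Z y = Φ (c, Z c, y) := by
  simpa using h.ray hZ zero_le_one hv

theorem vis_ball {r : ℝ} (h : ball c r ⊆ O) (hy : y ∈ ball c r) : Vis O c y := fun s hs =>
  h ((convex_ball c r).add_smul_sub_mem (mem_ball_self (pos_of_mem_ball hy)) hy hs)

theorem vis_open (hO : IsOpen O) (c : E) : IsOpen {y | Vis O c y} := by
  rw [isOpen_iff_mem_nhds]
  intro y hy
  have h : ∀ᶠ y' in 𝓝 y, ∀ s ∈ Icc (0 : ℝ) 1, c + s • (y' - c) ∈ O :=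
    isCompact_Icc.eventually_forall_of_forall_eventually fun s hs =>
      (by fun_prop : Continuous fun q : E × ℝ => c + q.2 • (q.1 - c)).continuousAt.eventually
        (hO.mem_nhds (hy s hs))
  exact h

/-- the first exit from an open set -/
theorem exit (hO : IsOpen O) (hc : c ∈ O) {b : ℝ} (hb : ¬∀ s ∈ Icc 0 b, c + s • v ∈ O) :
    ∃ t ∈ Ioc 0 b, c + t • v ∉ O ∧ ∀ s ∈ Ico 0 t, c + s • v ∈ O := by
  have hc' : IsClosed (Icc 0 b ∩ (fun s : ℝ => c + s • v) ⁻¹' Oᶜ) :=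
    isClosed_Icc.inter (hO.isClosed_compl.preimage (by fun_prop))
  push Not at hb
  obtain ⟨s₀, h1, h2⟩ := hb
  have hne : (Icc 0 b ∩ (fun s : ℝ => c + s • v) ⁻¹' Oᶜ).Nonempty := ⟨s₀, h1, h2⟩
  have hbd : BddBelow (Icc 0 b ∩ (fun s : ℝ => c + s • v) ⁻¹' Oᶜ) := ⟨0, fun s hs => hs.1.1⟩
  obtain ⟨h3, h4⟩ := hc'.csInf_mem hne hbd
  refine ⟨_, ⟨h3.1.lt_of_ne fun h => h4 ?_, h3.2⟩, h4, fun s hs => ?_⟩
  · rw [← h]; simpa using hc
  · by_contra h5
    exact (csInf_le hbd ⟨⟨hs.1, hs.2.le.trans h3.2⟩, h5⟩).not_gt hs.2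

/-- the value at the exit is the limit of the values of the solution -/
theorem Pg.lim (h : Pg A Φ) (hZ : Sol A Z O) {t : ℝ} (ht : 0 < t)
    (hs : ∀ s ∈ Ico 0 t, c + s • v ∈ O) :
    Tendsto (fun s : ℝ => (c + s • v, Z (c + s • v))) (𝓝[<] t)
      (𝓝 (c + t • v, Φ (c, Z c, c + t • v))) ∧ ∀ᶠ s in 𝓝[<] t, c + s • v ∈ O := by
  have h1 : ∀ᶠ s in 𝓝[<] t, s ∈ Ioo 0 t := Ioo_mem_nhdsLT ht
  have h2 : Continuous fun s : ℝ => (c + s • v, Φ (c, Z c, c + s • v)) :=
    Continuous.prodMk (by fun_prop) (h.sm.continuous.comp (by fun_prop))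
  refine ⟨((h2.tendsto t).mono_left nhdsWithin_le_nhds).congr' (h1.mono fun s hs' => ?_),
    h1.mono fun s hs' => hs s ⟨hs'.1.le, hs'.2⟩⟩
  simp only [h.ray hZ hs'.1.le fun r hr => hs r ⟨hr.1, hr.2.trans_lt hs'.2⟩]

theorem Pg.sm3 (h : Pg A Φ) (c : E) (z : V) : ContDiff ℝ ∞ fun y => Φ (c, z, y) :=
  h.sm.comp (by fun_prop)

/-- the extension solves the system on the closure of the visible set -/
theorem Pg.sol (h : Pg A Φ) (hO : IsOpen O) (hZ : Sol A Z O) (c : E) :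
    Sol A (fun y => Φ (c, Z c, y)) (closure {y | Vis O c y}) := by
  intro y hy
  have s := h.sm3 c (Z c)
  have h1 : IsClosed {y | fderiv ℝ (fun y => Φ (c, Z c, y)) y = (A y).flip (Φ (c, Z c, y))} :=
    isClosed_eq (s.continuous_fderiv (by simp))
      (((ContinuousLinearMap.flipₗᵢ ℝ E V V).continuous.comp h.cA).clm_apply s.continuous)
  have h2 := closure_minimal (fun y (hy : Vis O c y) => by
    have e : (fun y => Φ (c, Z c, y)) =ᶠ[𝓝 y] Z :=
      mem_of_superset ((vis_open hO c).mem_nhds hy) fun y' hy' => (h.vis hZ hy').symm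
    show fderiv ℝ (fun y => Φ (c, Z c, y)) y = (A y).flip (Φ (c, Z c, y))
    rw [e.fderiv_eq, (hZ y hy.mem).fderiv, ← h.vis hZ hy]) h1 hy
  rw [← show fderiv ℝ (fun y => Φ (c, Z c, y)) y = _ from h2]
  exact (s.differentiable (by simp) y).hasFDerivAt

/-- the propagator is Lipschitz in the end point -/
theorem Pg.lip [ProperSpace E] [ProperSpace V] (h : Pg A Φ) (y₀ : E) (r C : ℝ) :
    ∃ L ≥ (0 : ℝ), ∀ c ∈ closedBall y₀ r, ∀ y ∈ closedBall y₀ r, ∀ z, ‖z‖ ≤ C →
      ‖Φ (c, z, y) - z‖ ≤ L * ‖y - c‖ := by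
  have hK : IsCompact (closedBall y₀ r ×ˢ closedBall (0 : V) C ×ˢ closedBall y₀ r) :=
    (isCompact_closedBall _ _).prod ((isCompact_closedBall _ _).prod (isCompact_closedBall _ _))
  obtain ⟨L, hL⟩ := hK.exists_bound_of_continuousOn
    (h.sm.continuous_fderiv (by simp)).continuousOn
  refine ⟨max L 0, le_max_right _ _, fun c hc y hy z hz => ?_⟩
  have := ((convex_closedBall y₀ r).prod ((convex_closedBall (0 : V) C).prod
    (convex_closedBall y₀ r))).norm_image_sub_le_of_norm_fderiv_le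
    (fun q _ => h.sm.differentiable (by simp) q) (fun q hq => (hL q hq).trans (le_max_left L 0))
    (x := (c, z, c)) (y := (c, z, y)) ⟨hc, by simpa using hz, hc⟩ ⟨hc, by simpa using hz, hy⟩
  simpa [h.self] using this

end Vale.Agent.P366HB
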